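import Vale.Agent.P014T.Ht.Vc
import Vale.Agent.P014T.Bt.Defs
import Vale.Agent.P004F.Defs
import Vale.Agent.P004F.Qx.Fg
import Vale.Agent.P004S.Bas

/-! # P014T, block K: quadratic twists and coordinates on the points of order `2 ^ k` -/

set_option autoImplicit false
set_option linter.all false

open NumberField Matrix
open scoped Classical

noncomputable section

namespace Vale.Agent.P014T.Kx.Tw

open WeierstrassCurve.Affine Vale.Agent.P022 Vale.Agent.P014T.Vc P027M.K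
open P004M.TE hiding Qb GQ
open P004H.H666 (xp zp)
open P004F (sd)
open P004F.Qx (zf Fk)
open P004K (K1 Ip Zp)
open P004S (nu)

/-- a square root -/
def rt (d : ℤ) : Qb := (P004S.ex_sqrt d).choose

theorem rt_sq (d : ℤ) : rt d ^ 2 = d := (P004S.ex_sqrt d).choose_spec

theorem rt_ne {d : ℤ} (h : d ≠ 0) : rt d ≠ 0 := fun e => h (by
  have := rt_sq d
  rw [e, zero_pow two_ne_zero] at this
  exact_mod_cast this.symm)

theorem ga_rt (d : ℤ) (g : GQ) : g (rt d) = sd d g * rt d := by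
  rw [P004S.gal_sqrt (rt_sq d), sd]
  split_ifs <;> simp

theorem sd_or (d : ℤ) (g : GQ) : sd d g = 1 ∨ sd d g = -1 := by
  unfold sd; split_ifs <;> simp

theorem sd_sq (d : ℤ) (g : GQ) : sd d g * sd d g = 1 := by
  rcases sd_or d g with e | e <;> simp [e]

theorem sd_eq_one {d : ℤ} {g : GQ} : sd d g = 1 ↔ nu d g = 0 := by
  unfold sd; split_ifs with h <;> simp [h]

theorem sd_add {d e f : ℤ} {g h k : GQ} (H : nu d g = nu e h + nu f k) :
    sd d g = sd e h * sd f k := by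
  unfold sd
  rw [H]
  rcases P004S.z2 (nu e h) with a | a <;> rcases P004S.z2 (nu f k) with b | b <;>
    simp [a, b] <;> decide

theorem sd_mul (d : ℤ) (g h : GQ) : sd d (g * h) = sd d g * sd d h := sd_add (P004S.nu_mul d g h)

theorem sd_one (d : ℤ) : sd d 1 = 1 := sd_eq_one.2 (P004S.nu_one d)

theorem sd_mul_left {d e : ℤ} (hd : d ≠ 0) (he : e ≠ 0) (g : GQ) :
    sd (d * e) g = sd d g * sd e g := sd_add (P004S.nu_mul_left hd he g)

theorem sd_lc (d : ℤ) : IsLocallyConstant (sd d) :=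
  (P004S.nu_lc d).comp fun a : ZMod 2 => if a = 0 then (1 : ℤ) else -1

/-- `(A', B')` is the twist of `(A, B)` by `d` -/
structure Tq (d A B A' B' : ℤ) : Prop where
  ne : d ≠ 0
  a : A' = A * d ^ 2
  b : B' = B * d ^ 3

theorem tq {d : ℤ} (h : d ≠ 0) (A B : ℤ) : Tq d A B (A * d ^ 2) (B * d ^ 3) := ⟨h, rfl, rfl⟩

variable {d e A B A' B' A'' B'' : ℤ}

theorem Tq.disc (h : Tq d A B A' B') :
    4 * A' ^ 3 + 27 * B' ^ 2 = d ^ 6 * (4 * A ^ 3 + 27 * B ^ 2) := by rw [h.a, h.b]; ring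

theorem Tq.hD (h : Tq d A B A' B') (k : 4 * A ^ 3 + 27 * B ^ 2 ≠ 0) :
    4 * A' ^ 3 + 27 * B' ^ 2 ≠ 0 := h.disc ▸ mul_ne_zero (pow_ne_zero 6 h.ne) k

theorem Tq.trans (h : Tq d A B A' B') (k : Tq e A' B' A'' B'') : Tq (d * e) A B A'' B'' :=
  ⟨mul_ne_zero h.ne k.ne, by rw [k.a, h.a]; ring, by rw [k.b, h.b]; ring⟩

theorem Tq.ch (h : Tq d A B A' B') : Ch ((Cv Qb (A : ℚ) (B : ℚ)).map (RingHom.id Qb))
    (Cv Qb (A' : ℚ) (B' : ℚ)) (rt d) 0 0 0 := by
  have := rt_sq d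
  refine ⟨rt_ne h.ne, by simp, by simp, by simp, ?_, ?_⟩
  · simp only [WeierstrassCurve.map_a₄, RingHom.id_apply, h.a, map_intCast]
    push_cast
    linear_combination (A : Qb) * (rt d ^ 2 + d) * this
  · simp only [WeierstrassCurve.map_a₆, RingHom.id_apply, h.b, map_intCast]
    push_cast
    linear_combination (B : Qb) * (rt d ^ 4 + rt d ^ 2 * d + d ^ 2) * this

variable (h : Tq d A B A' B')

/-- **the twist** `(x, y) ↦ (d x, d √d y)` -/
def tw : Pt A B ≃+ Pt A' B' :=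
  AddEquiv.ofBijective (vm (RingHom.id Qb) h.ch) ⟨vm_inj _, vm_surj _ Function.surjective_id⟩

theorem tw_some {x y : Qb} (n : (Cv Qb (A : ℚ) (B : ℚ)).Nonsingular x y) :
    ∃ n', tw h (.some x y n) = .some (d * x) (d * rt d * y) n' := by
  have e1 : rt d ^ 2 * x + 0 = d * x := by rw [rt_sq, add_zero]
  have e2 : rt d ^ 3 * y + rt d ^ 2 * 0 * x + 0 = d * rt d * y := by rw [← rt_sq]; ring
  have n' := h.ch.ns.2 n
  simp only [RingHom.id_apply, e1, e2] at n'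
  exact ⟨n', (vm_ex h.ch n' e1.symm e2.symm).choose_spec⟩

/-- **the action is twisted** -/
theorem ga_tw (g : GQ) (P : Pt A B) : ga g (tw h P) = sd d g • tw h (ga g P) := by
  rcases P with _ | ⟨x, y, n⟩
  · change ga g (tw h 0) = sd d g • tw h (ga g 0)
    rw [map_zero, map_zero, map_zero, map_zero, zsmul_zero]
  obtain ⟨n1, e1⟩ := tw_some h n
  rw [e1, ga_some, ga_some]
  obtain ⟨n2, e2⟩ := tw_some h (nsg_ga g n)
  rw [e2]
  have k := ga_rt d g
  rcases sd_or d g with s | s <;> rw [s] at k ⊢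
  · rw [one_smul]
    congr 1 <;> simp [k]
  · rw [neg_smul, one_smul, Point.neg_some]
    congr 1 <;> simp [k, negY]

theorem tw_ga (g : GQ) (P : Pt A B) : tw h (ga g P) = sd d g • ga g (tw h P) := by
  rw [ga_tw, smul_smul, sd_sq, one_smul]

theorem ga_symm (g : GQ) (P : Pt A' B') : ga g ((tw h).symm P) = sd d g • (tw h).symm (ga g P) :=
  (tw h).injective (by rw [tw_ga, map_zsmul]; simp)

theorem symm_ga (g : GQ) (P : Pt A' B') : (tw h).symm (ga g P) = sd d g • ga g ((tw h).symm P) := by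
  rw [ga_symm, smul_smul, sd_sq, one_smul]

theorem ga_tw0 {g : GQ} (k : nu d g = 0) (P : Pt A B) : ga g (tw h P) = tw h (ga g P) := by
  rw [ga_tw, sd_eq_one.2 k, one_smul]

theorem xp_tw {P : Pt A B} (k : P ≠ 0) : xp (tw h P) = d * xp P := by
  rcases P with _ | ⟨x, y, n⟩
  · exact (k rfl).elim
  obtain ⟨n1, e1⟩ := tw_some h n
  rw [e1]
  rfl

theorem zf_tw (P : Pt A B) : zf (tw h P) = zf P / rt d := by
  rcases P with _ | ⟨x, y, n⟩
  · exact (congrArg zf (map_zero (tw h))).trans (zero_div _).symm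
  obtain ⟨n1, e1⟩ := tw_some h n
  have := rt_ne h.ne
  have : (d : Qb) ≠ 0 := Int.cast_ne_zero.2 h.ne
  rw [e1, zf, zf]
  by_cases k : y = 0
  · simp [k]
  field_simp

section

variable {P : Ideal (𝓞 Qb)} (hP : P.IsPrime) (hd : (d : 𝓞 Qb) ∉ P)
include hP hd

theorem ip_mul (a : Qb) : Ip P (d * a) ↔ Ip P a := by
  refine ⟨fun ⟨s, t, b, c⟩ => ⟨s * d, t, fun k => (hP.mem_or_mem k).elim b hd, ?_⟩,
    fun ⟨s, t, b, c⟩ => ⟨s, d * t, b, ?_⟩⟩
  · rw [← c]; push_cast; simp [mul_assoc]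
  · show (s : Qb) * (d * a) = ((d : 𝓞 Qb) : Qb) * t
    rw [← c, mul_left_comm]; rfl

theorem ip_div (a : Qb) : Ip P (a / rt d) ↔ Ip P a := by
  have d0 : d ≠ 0 := fun e => hd (by simp [e])
  have r0 := rt_ne d0
  have i : IsIntegral ℤ (rt d) := .of_pow two_pos (rt_sq d ▸ isIntegral_algebraMap (x := d))
  have e : (⟨rt d, i⟩ : 𝓞 Qb) ^ 2 = d := RingOfIntegers.ext (rt_sq d)
  have n : (⟨rt d, i⟩ : 𝓞 Qb) ∉ P := fun k => hd (e ▸ P.pow_mem_of_mem k 2 two_pos)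
  refine ⟨fun ⟨s, t, b, c⟩ => ⟨s, t * ⟨rt d, i⟩, b, ?_⟩,
    fun ⟨s, t, b, c⟩ => ⟨s * ⟨rt d, i⟩, t, fun k => (hP.mem_or_mem k).elim b n, ?_⟩⟩
  · show (s : Qb) * a = t * rt d
    rw [← c]; field_simp
  · show (s : Qb) * rt d * (a / rt d) = t
    rw [← c]; field_simp

theorem k1_tw (y : Pt A B) : K1 P (tw h y) ↔ K1 P y := by
  rcases y with _ | ⟨x, y, n⟩
  · have : tw h .zero = 0 := map_zero (tw h)
    rw [this]
    exact ⟨fun _ _ _ _ e => absurd e.symm (Point.some_ne_zero _),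
      fun _ _ _ _ e => absurd e.symm (Point.some_ne_zero _)⟩
  obtain ⟨n1, e1⟩ := tw_some h n
  rw [e1]
  refine ⟨fun k => ?_, fun k => ?_⟩ <;> rintro a b n' ⟨rfl, -⟩ i
  · exact k _ _ _ rfl ((ip_mul hP hd _).2 i)
  · exact k _ _ _ rfl ((ip_mul hP hd _).1 i)

/-- **the filtration of the formal group is preserved** -/
theorem fk_tw (κ : ℕ) (y : Pt A B) : Fk P κ (tw h y) ↔ Fk P κ y := by
  rw [Fk, Fk, k1_tw h hP hd, zf_tw, div_right_comm, ip_div hP hd]

end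

/-! ### coordinates -/

section

variable {a b : ℚ} (hD : 4 * a ^ 3 + 27 * b ^ 2 ≠ 0) (k : ℕ)

/-- reduction modulo `2 ^ k` -/
abbrev rz (k : ℕ) : ℤ_[2] →+* ZMod (2 ^ k) := PadicInt.toZModPow k

theorem rz_surj (v : Fin 2 → ZMod (2 ^ k)) : ∃ w : Fin 2 → ℤ_[2], v = rz k ∘ w :=
  ⟨fun i => (v i).val, funext fun i => by simp⟩

theorem co_aux (w : Fin 2 → ℤ_[2]) : ∑ i, ((rz k ∘ w) i).val • TM.cp k (bs hD i) =
    TM.cp k ((bs hD).equivFun.symm w) := by
  rw [Module.Basis.equivFun_symm_apply, map_sum]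
  rfl

/-- **the point with given coordinates** -/
def co : (Fin 2 → ZMod (2 ^ k)) →+ (Cv Qb a b).Point :=
  AddMonoidHom.mk' (fun v => ∑ i, (v i).val • TM.cp k (bs hD i)) fun v v' => by
    obtain ⟨w, rfl⟩ := rz_surj k v
    obtain ⟨w', rfl⟩ := rz_surj k v'
    rw [show rz k ∘ w + rz k ∘ w' = rz k ∘ (w + w') from funext fun i => (map_add _ _ _).symm,
      co_aux, co_aux, co_aux, map_add, map_add]

theorem co_rz (w : Fin 2 → ℤ_[2]) : co hD k (rz k ∘ w) = TM.cp k ((bs hD).equivFun.symm w) :=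
  co_aux hD k w

theorem co_inj : Function.Injective (co hD k) := (injective_iff_map_eq_zero _).2 fun v e => by
  obtain ⟨w, rfl⟩ := rz_surj k v
  obtain ⟨y, hy⟩ := TM.cp_eq_zero_iff.1 (co_rz hD k w ▸ e)
  rw [(LinearEquiv.symm_apply_eq _).1 hy, map_smul]
  funext i
  simp only [Function.comp, Pi.smul_apply, smul_eq_mul, map_mul, Pi.zero_apply]
  rw [← Nat.cast_pow, map_natCast, ZMod.natCast_self, zero_mul]

theorem co_tors (v : Fin 2 → ZMod (2 ^ k)) : 2 ^ k • co hD k v = 0 := by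
  obtain ⟨w, rfl⟩ := rz_surj k v
  rw [co_rz, TM.pow_smul_cp]

theorem co_ex {y : (Cv Qb a b).Point} (hy : 2 ^ k • y = 0) : ∃ v, co hD k v = y := by
  obtain ⟨x, rfl⟩ := TM.exists_cp (hdiv hD) hy
  exact ⟨rz k ∘ (bs hD).equivFun x, by rw [co_rz, LinearEquiv.symm_apply_apply]⟩

theorem co_ga (g : GQ) (v : Fin 2 → ZMod (2 ^ k)) :
    co hD k ((mt hD g).map (rz k) *ᵥ v) = ga g (co hD k v) := by
  obtain ⟨w, rfl⟩ := rz_surj k v
  rw [show (mt hD g).map (rz k) *ᵥ (rz k ∘ w) = rz k ∘ (mt hD g *ᵥ w) from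
    funext fun i => (RingHom.map_mulVec _ _ _ i).symm, co_rz, co_rz, ← cp_rho]
  refine congrArg _ ((LinearEquiv.symm_apply_eq _).2 ?_)
  have := LinearMap.toMatrix_mulVec_repr (bs hD) (bs hD) (rho a b g) ((bs hD).equivFun.symm w)
  rw [← Module.Basis.equivFun_apply, LinearEquiv.apply_symm_apply] at this
  exact this

/-- change of the level -/
theorem co_lev (j : ℕ) (w : Fin 2 → ℤ_[2]) :
    2 ^ j • co hD (k + j) (rz _ ∘ w) = co hD k (rz k ∘ w) := by rw [co_rz, co_rz, TM.cp_add]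

end

variable (hD : 4 * (A : ℚ) ^ 3 + 27 * (B : ℚ) ^ 2 ≠ 0) (k : ℕ)

/-- **coordinates on the twist** -/
def ct : (Fin 2 → ZMod (2 ^ k)) →+ Pt A' B' := (tw h).toAddMonoidHom.comp (co hD k)

theorem ct_apply (v : Fin 2 → ZMod (2 ^ k)) : ct h hD k v = tw h (co hD k v) := rfl

theorem ct_inj : Function.Injective (ct h hD k) := (tw h).injective.comp (co_inj hD k)

theorem ct_tors (v : Fin 2 → ZMod (2 ^ k)) : 2 ^ k • ct h hD k v = 0 := by
  rw [ct_apply, ← map_nsmul, co_tors, map_zero]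

theorem ct_ex {y : Pt A' B'} (hy : 2 ^ k • y = 0) : ∃ v, ct h hD k v = y := by
  obtain ⟨v, e⟩ := co_ex hD k (y := (tw h).symm y) (by rw [← map_nsmul, hy, map_zero])
  exact ⟨v, by rw [ct_apply, e, AddEquiv.apply_symm_apply]⟩

theorem ct_ga (g : GQ) (v : Fin 2 → ZMod (2 ^ k)) :
    ct h hD k ((sd d g • mt hD g).map (rz k) *ᵥ v) = ga g (ct h hD k v) := by
  have e : (sd d g • P004M.TE.mt hD g).map (rz k) = sd d g • (P004M.TE.mt hD g).map (rz k) := by
    ext i j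
    exact map_zsmul (rz k) _ _
  rw [e, smul_mulVec, map_zsmul, ct_apply, ct_apply, ga_tw, co_ga]

end Vale.Agent.P014T.Kx.Tw
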