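import Vale.Agent.P014T.Bt.Defs
import Vale.Agent.P004F.St

/-! # P014T, block K: the inequality which comes from the imaginary quadratic frame -/

set_option linter.all false

open NumberField Matrix PowerSeries
open scoped Classical

noncomputable section

namespace Vale.Agent.P014T.Kx

open Vale.Agent.P022 Vale.Agent.P004F
open Vale.Agent.P022K.G2 (In)
open Vale.Agent.P027M.S (Inert)
open Vale.Agent.P022D.W (dec)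
open Vale.Agent.P022E.GW (Ov Fb)
open P004M.TE (Pt ga)
open P004S (nu)
open P004T (ds)
open P004F.Qx (Fk dep)
open Bt (T2 Z0 Zl Km Zs Zk)
open Wm (Fx)

section words

variable (A B : ℤ)

/-- the number of points of order a power of two which are fixed by `D` -/
def tl (D : Subgroup GQ) : ℕ := Nat.card ↥(T2 A B ⊓ Fx A B D)

/-- division points of rational points -/
def Dv : AddSubgroup (Pt A B) where
  carrier := {Q | ∃ k : ℕ, 2 ^ k • Q ∈ Fx A B ⊤}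
  zero_mem' := ⟨0, by simp⟩
  add_mem' := fun ⟨k, a⟩ ⟨j, b⟩ => ⟨k + j, by
    rw [nsmul_add, pow_add, mul_nsmul, mul_nsmul']
    exact add_mem (nsmul_mem a _) (nsmul_mem b _)⟩
  neg_mem' := fun ⟨k, a⟩ => ⟨k, by rw [neg_nsmul]; exact neg_mem a⟩

/-- the index of the rational points in their local division points -/
def jx (D : Subgroup GQ) : ℕ := (Fx A B ⊤).relIndex (Dv A B ⊓ Fx A B D)

/-- the order of the two-primary part of the Tate-Shafarevich group -/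
def sh (S : Finset ℕ) (c : GQ) (P : ℕ → Ideal (𝓞 Qb)) : ℕ := (Zk A B S c).relIndex (Zs A B S c P)

/-- the Kummer condition at the primes of `U` -/
def ZU (S : Finset ℕ) (c : GQ) (P : ℕ → Ideal (𝓞 Qb)) (U : Finset ℕ) :
    AddSubgroup (GQ → Pt A B) := Z0 A B S c ⊓ ⨅ p ∈ U, Km A B (dec (P p))

/-- the number of real points of order at most two -/
def a2 (c : GQ) : ℕ := Nat.card {y : Pt A B // 2 • y = 0 ∧ ga c y = y}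

/-- `S` contains the bad primes, `P` chooses places -/
structure Pl (S : Finset ℕ) (P : ℕ → Ideal (𝓞 Qb)) : Prop where
  disc : 4 * A ^ 3 + 27 * B ^ 2 ≠ 0
  ov : ∀ p ∈ S, Ov p (P p)
  two : 2 ∈ S
  bad : ∀ l : ℕ, l.Prime → l ∉ S → ¬ (l : ℤ) ∣ 4 * A ^ 3 + 27 * B ^ 2

/-- `sh` has the value `s` for all larger sets of primes -/
def Sh (S : Finset ℕ) (c : GQ) (s : ℕ) : Prop := ∀ S' P, S ⊆ S' → Pl A B S' P → sh A B S' c P = s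

/-- cocycles of `Γ` (extended by zero), unramified outside `S` -/
def ZK (Γ : Subgroup GQ) (S : Finset ℕ) : AddSubgroup (GQ → Pt A B) := Zl A B Γ ⊓
  { carrier := {x | ∀ g, g ∉ Γ ∨ g ∈ In S → x g = 0}
    zero_mem' := fun _ _ => rfl
    add_mem' := fun a b g h => by rw [Pi.add_apply, a g h, b g h, add_zero]
    neg_mem' := fun a g h => by rw [Pi.neg_apply, a g h, neg_zero] }

/-- the Kummer condition at the places over `U` -/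
def ZP (Γ : Subgroup GQ) (S : Finset ℕ) (P : ℕ → Ideal (𝓞 Qb)) (U : Finset ℕ) :
    AddSubgroup (GQ → Pt A B) := ZK A B Γ S ⊓ ⨅ p ∈ U, Km A B (dec (P p))

/-- zero at the place over two, Kummer at the places over `σ` -/
def ZW (Γ : Subgroup GQ) (S : Finset ℕ) (P : ℕ → Ideal (𝓞 Qb)) (σ : Finset ℕ) :
    AddSubgroup (GQ → Pt A B) := ZP A B Γ S P σ ⊓
  { carrier := {x | ∀ g ∈ dec (P 2), x g = 0}
    zero_mem' := fun _ _ => rfl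
    add_mem' := fun a b g h => by rw [Pi.add_apply, a g h, b g h, add_zero]
    neg_mem' := fun a g h => by rw [Pi.neg_apply, a g h, neg_zero] }

variable {A B} {A' B' : ℤ}

/-- `t` is a quadratic twist -/
def Tw (d : ℤ) (t : Pt A B ≃+ Pt A' B') : Prop := ∀ g y, ga g (t y) = t (sd d g • ga g y)

/-- restriction to `Γ` -/
def rs (Γ : Subgroup GQ) (t : Pt A B ≃+ Pt A' B') : (GQ → Pt A' B') →+ GQ → Pt A B where
  toFun x g := if g ∈ Γ then t.symm (x g) else 0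
  map_zero' := funext fun g => by simp
  map_add' x y := funext fun g => by by_cases h : g ∈ Γ <;> simp [h]

/-- `1 - c` -/
def pi (Γ : Subgroup GQ) (c : GQ) : (GQ → Pt A B) →+ GQ → Pt A B where
  toFun x g := if g ∈ Γ then x g - ga c (x (c * g * c)) else 0
  map_zero' := funext fun g => by simp
  map_add' x y := funext fun g => by
    by_cases h : g ∈ Γ <;> simp [h]
    abel

end words

/-! ### the easy half of the duality over `ℚ` -/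

/-- local torsion is finite -/
def FT : Prop := ∀ (A B : ℤ) p P, 4 * A ^ 3 + 27 * B ^ 2 ≠ 0 → Ov p P → tl A B (dec P) ≠ 0

def UP1 : Prop := ∀ A B S P c, Pl A B S P → IsConj c → (∃ y ∈ Fx A B ⊤, ¬ IsOfFinAddOrder y) →
  jx A B (dec (P 2)) ≠ 0 → (Zs A B S c P).relIndex (Z0 A B S c) ≠ 0 ∧
  (Zs A B S c P).relIndex (Z0 A B S c) ≤ jx A B (dec (P 2)) * ∏ p ∈ S.erase 2, tl A B (dec (P p))

def UP0 : Prop := ∀ A B S P c U, Pl A B S P → IsConj c → U ⊆ S →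
  (2 ∉ U → (ZU A B S c P U).relIndex (Z0 A B S c) ≠ 0) ∧
  (2 ∈ U → U ≠ S → (Zs A B S c P).relIndex (ZU A B S c P U) ≠ 0 ∧
    (Zs A B S c P).relIndex (ZU A B S c P U) * tl A B ⊤ ≤ ∏ p ∈ S \ U, tl A B (dec (P p)))

/-- the corank is at least two -/
def INF : Prop := ∀ A B S P c, Pl A B S P → IsConj c →
  Finite {x // x ∈ Z0 A B S c ∧ 2 • x = 0} ∧
  (Finite (Fx A B ⊤) → (Zk A B S c).relIndex (Z0 A B S c) = 0)

/-! ### from `K` to `ℚ` -/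

/-- index algebra -/
def KA : Prop := ∀ (F : Type) [AddCommGroup F] (π : F →+ F) (Z Z₀ Z' B₁ B₀ : AddSubgroup F),
  Z₀ ≤ Z → Z' ≤ Z → (∀ x ∈ Z, π x ∈ Z₀) → (∀ y ∈ Z₀, π y = 2 • y) → B₁ ≤ Z' ⊓ π.ker →
  B₀ ≤ Z₀ ⊓ Z' → (∀ y ∈ Z₀, ∃ k : ℕ, 2 ^ k • y = 0) → Finite {y // y ∈ Z₀ ∧ 2 • y = 0} →
  Infinite B₀ → (Z₀ ⊓ Z').relIndex Z₀ = 0 → B₁.relIndex (Z ⊓ π.ker) ≠ 0 →
  B₀.relIndex (Z₀ ⊓ Z') ≠ 0 → (B₁ ⊔ B₀).relIndex Z' ≠ 0 ∧ 4 * (B₁ ⊔ B₀).relIndex Z' ≤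
    B₁.relIndex (Z ⊓ π.ker) * B₀.relIndex (Z₀ ⊓ Z') * Nat.card ↥(B₁ ⊓ B₀)

/-- a curve, its twist by an imaginary quadratic field, the places -/
structure Su where
  A : ℤ
  B : ℤ
  A' : ℤ
  B' : ℤ
  d : ℤ
  t : Pt A B ≃+ Pt A' B'
  Γ : Subgroup GQ
  c : GQ
  S : Finset ℕ
  L : Finset ℕ
  σ : Finset ℕ
  P : ℕ → Ideal (𝓞 Qb)
  tw : Tw d t
  mem : ∀ g, g ∈ Γ ↔ nu d g = 0
  cc : IsConj c
  out : c ∉ Γ
  p1 : Pl A B S P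
  p0 : Pl A' B' (S ∪ L) P
  dj : Disjoint S L
  un : ∀ g ∈ In (S ∪ L : Finset ℕ), g ∈ Γ
  ram : ∀ l ∈ L, ∃ g, Inert (P l) g ∧ g ∉ Γ
  sub : σ ⊆ S.erase 2
  le : ∀ p ∈ insert 2 σ, dec (P p) ≤ Γ
  ne : insert 2 σ ≠ S

namespace Su

variable (s : Su)

/-- restriction for the curve -/
abbrev r1 := rs s.Γ (AddEquiv.refl (Pt s.A s.B))

/-- restriction for the twist -/
abbrev r0 := rs s.Γ s.t

abbrev π : (GQ → Pt s.A s.B) →+ GQ → Pt s.A s.B := pi s.Γ s.c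

abbrev Z := ZK s.A s.B s.Γ s.S

abbrev W := ZW s.A s.B s.Γ s.S s.P s.σ

abbrev B1 := (Zk s.A s.B s.S s.c).map s.r1

abbrev B0 := (Zk s.A' s.B' (s.S ∪ s.L) s.c).map s.r0

abbrev U (U : Finset ℕ) := ZU s.A' s.B' (s.S ∪ s.L) s.c s.P U

end Su

def RA : Prop := ∀ s : Su, ∀ x ∈ s.Z, s.π x ∈ (s.U s.L).map s.r0

def RB : Prop := ∀ s : Su, (s.U s.L).map s.r0 ≤ s.Z ∧
  (∀ y ∈ Z0 s.A' s.B' (s.S ∪ s.L) s.c, s.π (s.r0 y) = 2 • s.r0 y ∧ (s.r0 y = 0 → y = 0)) ∧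
  (∀ y, ∀ D ≤ s.Γ, s.r0 y ∈ Km s.A s.B D ↔ y ∈ Km s.A' s.B' D) ∧
  (∀ y ∈ Z0 s.A s.B s.S s.c, s.r1 y ∈ s.Z ⊓ s.π.ker ∧ (s.r1 y = 0 → y = 0)) ∧
  (∀ y, ∀ D ≤ s.Γ, s.r1 y ∈ Km s.A s.B D ↔ y ∈ Km s.A s.B D) ∧
  ∀ D ≤ s.Γ, tl s.A s.B D = tl s.A' s.B' D

def RC : Prop := ∀ s : Su, ((Z0 s.A s.B s.S s.c).map s.r1).relIndex (s.Z ⊓ s.π.ker) ≠ 0 ∧
  ((Z0 s.A s.B s.S s.c).map s.r1).relIndex (s.Z ⊓ s.π.ker) ≤ ∏ l ∈ s.L, tl s.A' s.B' (dec (s.P l))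

def PT : Prop := ∀ s : Su, Finite (Fx s.A' s.B' ⊤) → jx s.A s.B (dec (s.P 2)) ≠ 0 →
  Infinite s.B0 ∧ Finite ↥(s.W ⊓ (s.B1 ⊔ s.B0)) ∧
  Nat.card ↥(s.B1 ⊓ s.B0) * Nat.card ↥(s.W ⊓ (s.B1 ⊔ s.B0)) * tl s.A' s.B' ⊤ ≤
    a2 s.A s.B s.c * jx s.A s.B (dec (s.P 2))

/-- **the bound for the strict group over `K`** -/
def KB : Prop := ∀ s : Su, (∃ y ∈ Fx s.A s.B ⊤, ¬ IsOfFinAddOrder y) → Finite (Fx s.A' s.B' ⊤) →
  jx s.A s.B (dec (s.P 2)) ≠ 0 → sh s.A s.B s.S s.c s.P ≠ 0 → sh s.A' s.B' (s.S ∪ s.L) s.c s.P ≠ 0 →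
  Finite s.W ∧ 4 * (Nat.card s.W * ∏ p ∈ s.σ, tl s.A s.B (dec (s.P p))) * tl s.A' s.B' ⊤ ^ 2 ≤
    a2 s.A s.B s.c * jx s.A s.B (dec (s.P 2)) ^ 2 * sh s.A s.B s.S s.c s.P *
    sh s.A' s.B' (s.S ∪ s.L) s.c s.P * (∏ p ∈ s.S.erase 2, tl s.A s.B (dec (s.P p))) *
    ∏ p ∈ (s.S ∪ s.L).erase 2, tl s.A' s.B' (dec (s.P p))

/-! ### the frame -/

/-- the twisted trace of the depleted Heegner point -/
def hp {e : Crv} (b : Fld e) (T : Finset GQ) (c : ℕ) : Pt e.A e.B :=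
  ∑ g ∈ T, sd (ds e.δ) g • ga g (dep e.N e.w e.a e.S' b.φ (b.Y c))

/-- the value of the Euler system at the trivial character -/
def Vl {e : Crv} (b : Fld e) (j c : ℕ) (Ψ : GQ → Rj j) (t : Rj j) : Prop :=
  (∀ g ∈ b.Γ, Ψ g - 1 ∈ Ideal.span {mj j X}) → ∀ i ≤ j, (∀ T, b.Tv (e.δ * c) T →
    Fk (e.P 2) (2 ^ i * e.S'.prod ^ 2) (hp b T (e.δ * c))) → t ∈ Ideal.span {(2 : Rj j) ^ i, mj j X}

def ESX : Prop := ∀ (e : Crv) (b : Fld e), ∃ c₀ : ℕ, ∀ j, 0 < j →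
  ∃ ε : Rj j → GQ → Fin 2 → Rj j, ∀ c Ψ, b.Chr j c Ψ →
    ∃ κ t m, b.Es c₀ j c Ψ (ε (Ψ (b.φ 2))) κ t m ∧ Vl b j c Ψ (t ∅)

/-- the strict group of the frame at the trivial character -/
def Zf {e : Crv} (b : Fld e) (k c : ℕ) :
    Set ((GQ → Fin 2 → ZMod (2 ^ k)) × (e.σ → Fin 2 → ZMod (2 ^ k))) :=
  {x | b.Sel (b.T c) (fun g => (e.rd g).map (PadicInt.toZModPow k)) 0 x.1 (0 : ZMod (2 ^ k)) x.2}

/-- kernels of matrices modulo powers of two -/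
def KER : Prop := ∀ (n : Type) [Fintype n] [DecidableEq n] (M : Matrix n n ℤ_[2]) (a k : ℕ),
  (2 ^ a ∣ M.det → a ≤ k → 2 ^ a ≤ Nat.card {y // M.map (PadicInt.toZModPow k) *ᵥ y = 0}) ∧
  (¬ 2 ^ (a + 1) ∣ M.det → Nat.card {y // M.map (PadicInt.toZModPow k) *ᵥ y = 0} ≤ 2 ^ a)

/-- **the main conjecture at the trivial character** -/
def FX : Prop := ∀ (e : Crv) (b : Fld e), b.Anc → ∃ m : ℕ, ∀ n : ℕ, ∃ c : ℕ, 1 < c ∧ Squarefree c ∧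
  c.primeFactors.card ≤ m ∧ (∀ q ∈ c.primeFactors, b.Gp m n q) ∧ ∀ i ≤ n,
    (∀ T, b.Tv (e.δ * c) T → Fk (e.P 2) (2 ^ i * e.S'.prod ^ 2) (hp b T (e.δ * c))) →
    4 ^ i ≤ Nat.card (Zf b (2 * n) c)

/-- the trace down the tower: one factor for each prime -/
def TR1 : Prop := ∀ (e : Crv) (b : Fld e) (c : ℕ), Squarefree c →
  (∀ q ∈ c.primeFactors, q ∉ e.S ∧ ¬ q ∣ b.δ') → ∀ (Q : ℕ → Ideal (𝓞 Qb)) (φ : ℕ → GQ),
  (∀ q ∈ c.primeFactors, Ov q (Q q) ∧ Fb q (Q q) (φ q)) → ∀ T T', b.Tv e.δ T → b.Tv (e.δ * c) T' →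
  hp b T' (e.δ * c) = (∏ q ∈ c.primeFactors,
    (e.a q - if φ q ∈ b.Γ then 2 * sd (ds e.δ) (φ q) else 0)) • hp b T e.δ

/-- the local factor at a prime of the tower -/
def TR2 : Prop := ∀ (e : Crv) (b : Fld e) (A B A' B' : ℤ) (t : Pt e.A e.B ≃+ Pt A B)
  (t' : Pt A B ≃+ Pt A' B'), Tw (ds e.δ) t → Tw (-b.δ') t' → ∀ m n q Q φ, m ≤ n → b.Gp m n q →
  Ov q Q → Fb q Q φ → ∃ k ≤ m, tl A B (dec Q) * tl A' B' (dec Q) ≤ 4 ^ k ∧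
    2 ^ k ∣ e.a q - if φ ∈ b.Γ then 2 * sd (ds e.δ) φ else 0

/-- coordinates -/
def CVT : Prop := ∀ (e : Crv) (b : Fld e) (A B : ℤ) (t : Pt e.A e.B ≃+ Pt A B), Tw (ds e.δ) t →
  ∀ P k c, (∀ p ∈ e.S, P p = e.P p) → Finite (ZW A B b.Γ (b.T c) P e.σ) →
  Nat.card (Zf b k c) ≤ Nat.card (ZW A B b.Γ (b.T c) P e.σ) * ∏ p ∈ e.σ, tl A B (dec (P p))

/-- **the export of the block** -/
def KX : Prop := ∀ (e : Crv) (b : Fld e), b.Anc → ∀ (A B A' B' : ℤ) (t : Pt e.A e.B ≃+ Pt A B)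
  (t' : Pt A B ≃+ Pt A' B') (P : ℕ → Ideal (𝓞 Qb)) (S S' : Finset ℕ) (s s' i : ℕ) (T : Finset GQ),
  Tw (ds e.δ) t → Tw (-b.δ') t' → (∀ p ∈ e.S, P p = e.P p) → S = e.S.toFinset →
  S' = S ∪ b.δ'.primeFactors → Pl A B S P → Pl A' B' S' P →
  (∃ y ∈ Fx A B ⊤, ¬ IsOfFinAddOrder y) → Finite (Fx A' B' ⊤) → jx A B (dec (P 2)) ≠ 0 →
  Sh A B S b.c s → Sh A' B' S' b.c s' → s ≠ 0 → s' ≠ 0 → b.Tv e.δ T →
  Fk (e.P 2) (2 ^ i * e.S'.prod ^ 2) (hp b T e.δ) →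
  4 ^ (i + 1) * tl A' B' ⊤ ^ 2 ≤ a2 A B b.c * jx A B (dec (P 2)) ^ 2 * s * s' *
    (∏ p ∈ S.erase 2, tl A B (dec (P p))) * ∏ p ∈ S'.erase 2, tl A' B' (dec (P p))

end Vale.Agent.P014T.Kx
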