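import Vale.Agent.P014T.Kx.St
import Vale.Agent.P004F.Es.Tow
import Vale.Agent.P004F.Es.Gns
import Vale.Agent.P004F.Es.Tyq

/-! # P014T, block K: row TR1 (the trace down the tower) -/

set_option linter.all false

open NumberField Finset
open scoped Classical

noncomputable section

namespace Vale.Agent.P014T.Kx

open Vale.Agent.P022 Vale.Agent.P004K Vale.Agent.P004F Vale.Agent.P004F.Es
open Vale.Agent.P022E.GW (Ov Fb)
open P004M.TE (Pt ga ga_mul)
open P004T (ds)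
open P004F.Qx (dep op gE)

namespace T1

/-- a Frobenius element which fixes `K` belongs to a split prime -/
theorem split {K : Type} [Field K] [NumberField K] (j : K →+* Qb) (iq : Iq K) {q n : ℕ}
    {P : Ideal (𝓞 Qb)} {φ : GQ} (o : Ov q P) (f : Fb q P φ) (m : φ ∈ GK j) (ty : Typ K q n) :
    Ideal.absNorm (below j P) = q ∧ ∃ L', below j P ⊔ L' = ⊤ ∧ below j P ≠ ⊤ ∧ L' ≠ ⊤ ∧
      below j P * L' = Ideal.span {(q : 𝓞 K)} := by
  have := o.2.1
  have pr : (below j P).IsPrime := Ideal.comap_isPrime _ P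
  have le : Ideal.span {(q : 𝓞 K)} ≤ below j P := (Ideal.span_singleton_le_iff_mem _).2 (by
    show RingOfIntegers.mapRingHom j q ∈ P
    rw [map_natCast]
    exact o.2.2)
  have nq : Ideal.absNorm (Ideal.span {(q : 𝓞 K)}) = q ^ 2 := by
    rw [Ideal.absNorm_span_natCast, RingOfIntegers.rank, iq.two]
  have q2 := o.1.two_le
  rcases ty.2 with h | ⟨⟨L, L', h1, h2, h3, h4⟩, -⟩
  · exfalso
    have mx := h.1.isMaximal (by simpa using o.1.ne_zero)
    have e := mx.eq_of_le pr.ne_top le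
    letI := Ideal.Quotient.field (Ideal.span {(q : 𝓞 K)})
    have : Finite (𝓞 K ⧸ Ideal.span {(q : 𝓞 K)}) :=
      (Ideal.absNorm_ne_zero_iff _).1 (by rw [nq]; positivity)
    have := Fintype.ofFinite (𝓞 K ⧸ Ideal.span {(q : 𝓞 K)})
    have k := (FiniteField.forall_pow_eq_one_iff (𝓞 K ⧸ Ideal.span {(q : 𝓞 K)}) (q - 1)).1 fun x => by
      obtain ⟨y, hy⟩ := Ideal.Quotient.mk_surjective (x : 𝓞 K ⧸ Ideal.span {(q : 𝓞 K)})
      have a : y - y ^ q ∈ below j P := by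
        have := f (RingOfIntegers.mapRingHom j y)
        rwa [show φ • RingOfIntegers.mapRingHom j y = RingOfIntegers.mapRingHom j y from
          Subtype.ext (m y), ← map_pow, ← map_sub] at this
      rw [← e, ← Ideal.Quotient.eq, map_pow, hy] at a
      refine mul_left_cancel (a := x) (Units.ext ?_)
      rw [← pow_succ', Nat.sub_add_cancel (by omega), mul_one, Units.val_pow_eq_pow_val, ← a]
    rw [← Nat.card_eq_fintype_card, ← Submodule.cardQuot_apply, ← Ideal.absNorm_apply, nq] at k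
    have := Nat.le_of_dvd (by omega) k
    have : q + q ≤ q ^ 2 := by nlinarith
    omega
  · wlog a : L ≤ below j P generalizing L L'
    · exact this L' L (sup_comm L L' ▸ h1) h3 h2 (mul_comm L L' ▸ h4)
        ((pr.mul_le.1 (h4.le.trans le)).resolve_left a)
    have e : Ideal.absNorm L = q := by
      rw [← h4, map_mul] at nq
      obtain ⟨i, hi, e⟩ := (Nat.dvd_prime_pow o.1).1 (Dvd.intro _ nq)
      interval_cases i
      · exact absurd (Ideal.absNorm_eq_one_iff.1 e) h2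
      · exact e.trans (pow_one q)
      · rw [e, mul_eq_left₀ (by positivity)] at nq
        exact absurd (Ideal.absNorm_eq_one_iff.1 nq) h3
    obtain rfl := ((Ideal.isPrime_of_irreducible_absNorm (e ▸ o.1)).isMaximal fun z => by
      rw [z, Ideal.absNorm_bot] at e
      omega).eq_of_le pr.ne_top a
    exact ⟨e, L', h1, h2, h3, h4⟩

variable {A B : ℤ} {Γ H : Subgroup GQ} {U : Finset GQ} {d : ℤ}

/-- the twisted trace -/
def tr (d : ℤ) (U : Finset GQ) : Pt A B →+ Pt A B := ∑ g ∈ U, sd d g • ga g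

theorem tr_apply (y : Pt A B) : tr d U y = ∑ g ∈ U, sd d g • ga g y := by
  simp [tr, AddMonoidHom.finset_sum_apply]

variable (f : Fr Γ H U (sd d)) (cm : ∀ g ∈ Γ, ∀ h ∈ Γ, g * h * g⁻¹ * h⁻¹ ∈ H) {y : Pt A B}
include f cm

theorem fx_ga (hy : y ∈ Wm.Fx A B H) {g : GQ} (hg : g ∈ Γ) : ga g y ∈ Wm.Fx A B H := fun h m => by
  rw [← ga_mul, show h * g = g * (g⁻¹ * h * g⁻¹⁻¹ * h⁻¹ * h) by group, ga_mul,
    hy _ (mul_mem (cm _ (inv_mem hg) _ (f.le m)) m)]

theorem tr_ga (hy : y ∈ Wm.Fx A B H) {g : GQ} (hg : g ∈ Γ) :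
    tr d U (ga g y) = sd d g • tr d U y := by
  rw [tr_apply, tr_apply, ← f.sum (p := fun u => sd d u • ga u y) (fun u a h m => by
    rw [f.psi a m, ga_mul, hy h m]) hg, smul_sum]
  refine sum_congr rfl fun u hu => ?_
  rw [Ra.sd_mul, smul_smul, ← mul_assoc, Ra.sd_sq, one_mul, ← ga_mul,
    show u * g = g * u * (u⁻¹ * g⁻¹ * u⁻¹⁻¹ * g⁻¹⁻¹) by group, ga_mul (g * u),
    hy _ (cm _ (inv_mem (f.mem u hu)) _ (inv_mem hg))]

theorem tr_op (hy : y ∈ Wm.Fx A B H) (N : ℕ) (a : ℕ → ℤ) {φ : ℕ → GQ} {S : List ℕ}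
    (h : ∀ p ∈ S, φ p ∈ Γ) : (S.map fun p => op N a p (φ p)).prod y ∈ Wm.Fx A B H ∧
      tr d U ((S.map fun p => op N a p (φ p)).prod y) =
        (S.map fun p => p - a p * sd d (φ p) + if p ∣ N then 0 else 1).prod • tr d U y := by
  induction S with
  | nil => exact ⟨hy, (one_smul _ _).symm⟩
  | cons p S ih =>
    obtain ⟨i1, i2⟩ := ih fun q m => h q (List.mem_cons_of_mem _ m)
    have m := h p List.mem_cons_self
    rw [List.map_cons, List.prod_cons, List.map_cons, List.prod_cons, mul_smul, ← i2,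
      AddMonoid.End.coe_mul, Function.comp_apply]
    generalize (S.map fun p => op N a p (φ p)).prod y = z at i1
    have e : op N a p (φ p) z = p • z - a p • ga (φ p) z +
        if p ∣ N then 0 else ga (φ p * φ p) z := by
      unfold op
      split_ifs <;> rfl
    rw [e]
    refine ⟨add_mem (sub_mem (nsmul_mem i1 _) (zsmul_mem (fx_ga f cm i1 m) _)) ?_, ?_⟩
    · split_ifs
      exacts [zero_mem _, fx_ga f cm i1 (mul_mem m m)]
    · rw [map_add, map_sub, map_nsmul, map_zsmul, tr_ga f cm i1 m]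
      split_ifs
      · rw [map_zero]
        module
      · rw [tr_ga f cm i1 (mul_mem m m), Ra.sd_mul, Ra.sd_sq]
        module

end T1

open T1

/-- the factor of the depletion -/
def nd {e : Crv} (b : Fld e) : ℤ := (e.w * e.S'.prod : ℕ) *
  (e.S'.map fun p => p - e.a p * sd (ds e.δ) (b.φ p) + if p ∣ e.N then 0 else 1).prod

theorem T1.fr (r1 : RC1) (r2 : RC2) {e : Crv} (b : Fld e) {c : ℕ} (c0 : 0 < c) {T : Finset GQ}
    (hT : b.Tv (e.δ * c) T) : Fr b.Γ (Hc b.j (e.δ * c)) T (sd (ds e.δ)) :=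
  ⟨inf_le_left, hT.1, hT.2, fun g _ h _ => Ra.sd_mul _ g h, fun h m =>
    Ra.sd_zero (gns r1 r2 e b h ((r1 _ b.j b.iq _ e.ok.one.le).2.2.2.2.2 c c0 m))⟩

/-- the depletion multiplies the twisted trace by `nd` -/
theorem hp_eq (r1 : RC1) (r2 : RC2) {e : Crv} (b : Fld e) {c : ℕ} (c0 : 0 < c) (cop : c.Coprime e.N)
    {T : Finset GQ} (hT : b.Tv (e.δ * c) T) :
    hp b T (e.δ * c) = nd b • ∑ g ∈ T, sd (ds e.δ) g • ga g (b.Y (e.δ * c)) := by
  have d0 := Nat.mul_pos e.ok.one.le c0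
  rw [hp, ← tr_apply, ← tr_apply, nd, mul_smul, ← (tr_op (fr r1 r2 b c0 hT)
    (r1 _ b.j b.iq _ d0).2.2.2.1 (b.fx _ d0 (e.ok.cop.symm.mul_left cop)) e.N e.a (S := e.S') fun p m =>
      b.ch.mem p (List.mem_of_mem_filter m)).2, natCast_zsmul, ← map_nsmul]
  rfl

theorem hp_one (r1 : RC1) (r2 : RC2) {e : Crv} (b : Fld e) {T : Finset GQ} (hT : b.Tv e.δ T) :
    hp b T e.δ = nd b • ∑ g ∈ T, sd (ds e.δ) g • ga g (b.Y e.δ) := by
  simpa using hp_eq r1 r2 b one_pos (Nat.coprime_one_left _) (T := T) (by simpa using hT)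

theorem T1.tow (r1 : RC1) (r2 : RC2) (r3 : RC3) {e : Crv} (b : Fld e) (Q : ℕ → Ideal (𝓞 Qb))
    (φ : ℕ → GQ) {T : Finset GQ} (hT : b.Tv e.δ T) (c : ℕ) : Squarefree c →
    (∀ q ∈ c.primeFactors, q ∉ e.S ∧ ¬ q ∣ b.δ') →
    (∀ q ∈ c.primeFactors, Ov q (Q q) ∧ Fb q (Q q) (φ q)) → ∀ T', b.Tv (e.δ * c) T' →
    tr (ds e.δ) T' (b.Y (e.δ * c)) = (∏ q ∈ c.primeFactors,
      (e.a q - if φ q ∈ b.Γ then 2 * sd (ds e.δ) (φ q) else 0)) • tr (ds e.δ) T (b.Y e.δ) := by
  have δ0 : 0 < e.δ := e.ok.one.le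
  induction c using induction_on_primes with
  | zero => exact fun h => absurd h not_squarefree_zero
  | one =>
    intro _ _ _ T' hT'
    have f := fr r1 r2 b one_pos hT'
    rw [mul_one] at f hT' ⊢
    rw [Nat.primeFactors_one, prod_empty, one_smul, tr_apply, tr_apply]
    exact (f.rei (p := fun u => sd (ds e.δ) u • ga u (b.Y e.δ)) (v := id) (fun u a h m => by
      rw [f.psi a m, ga_mul, b.fx _ δ0 e.ok.cop.symm h m]) hT.1 hT.2).symm
  | prime_mul l c hl ih =>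
    intro sq hp hQ T' hT'
    have c0 : 0 < c := Nat.pos_of_ne_zero fun z => sq.ne_zero (by simp [z])
    have d0 := Nat.mul_pos δ0 c0
    have pf : ∀ q : ℕ, q.Prime → q ∣ l * c → q ∈ (l * c).primeFactors := fun q a d =>
      Nat.mem_primeFactors.2 ⟨a, d, sq.ne_zero⟩
    have pf' : c.primeFactors ⊆ (l * c).primeFactors :=
      Nat.primeFactors_mono (dvd_mul_left _ _) sq.ne_zero
    have hN : ∀ q : ℕ, q.Prime → q ∣ l * c → ¬ q ∣ e.N * e.δ := fun q a d =>
      (e.bad q a (hp q (pf q a d)).1).1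
    have cop : (e.δ * (l * c)).Coprime e.N := e.ok.cop.symm.mul_left
      (Nat.coprime_of_dvd fun q a d d' => hN q a d (d'.mul_right _))
    have cop' : (e.δ * c).Coprime e.N := cop.coprime_dvd_left ⟨l, by ring⟩
    have l1 := hN l hl (dvd_mul_right _ _)
    have l0 : ¬ l ∣ c := fun d => hl.one_lt.ne' (Nat.isUnit_iff.1 (sq l (mul_dvd_mul_left l d)))
    have l2 : ¬ l ∣ e.δ * c := fun d => ((Nat.Prime.dvd_mul hl).1 d).elim
      (fun d => l1 (d.mul_left _)) l0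
    have l3 : ¬ l ∣ e.δ * c * e.N := fun d => ((Nat.Prime.dvd_mul hl).1 d).elim l2
      fun d => l1 (d.mul_right _)
    obtain ⟨l4, l5⟩ := hp l (pf l hl (dvd_mul_right _ _))
    obtain ⟨o, fb⟩ := hQ l (pf l hl (dvd_mul_right _ _))
    obtain ⟨⟨n, ty⟩, inr⟩ := (tyq r1 r2 e b).1 l hl (fun z => l4 (z ▸ e.two)) l5
    obtain ⟨t, -, ht'⟩ := (r3 _ b.j b.iq b.upm).2 l n ty _ o.2.1 o.2.2
    have gn := ht' _ d0 l2
    have n0 : 0 < n := by
      have := hl.two_le
      rcases ty.2 with h | h <;> omega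
    obtain ⟨-, -, -, cm, -, le⟩ := r1 _ b.j b.iq _ d0
    have f' := fr r1 r2 b (Nat.mul_pos hl.pos c0) hT'
    have e1 : e.δ * (l * c) = e.δ * c * l := by ring
    rw [e1] at f' cop ⊢
    have s1 : ∀ h ∈ Hc b.j (e.δ * c), sd (ds e.δ) h = 1 := fun h m =>
      Ra.sd_zero (gns r1 r2 e b h ((r1 _ b.j b.iq _ δ0).2.2.2.2.2 c c0 m))
    obtain ⟨U, f⟩ := f'.down (le l hl.pos) inf_le_left s1
    rw [Nat.primeFactors_mul hl.ne_zero c0.ne', hl.primeFactors, ← insert_eq,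
      prod_insert fun m => l0 (Nat.dvd_of_mem_primeFactors m), mul_smul,
      ← ih sq.of_mul_right (fun q m => hp q (pf' m)) (fun q m => hQ q (pf' m)) U ⟨f.mem, f.rep⟩,
      tr_apply, f.two f' (le l hl.pos) n0 gn.1 gn.2.1 gn.2.2 fun u a h m => by
        rw [f'.psi a m, ga_mul, b.fx _ (Nat.mul_pos d0 hl.pos) cop h m]]
    have e2 : ∀ u ∈ U, ∑ i ∈ range n, sd (ds e.δ) (u * t ^ i) • ga (u * t ^ i) (b.Y (e.δ * c * l)) =
        sd (ds e.δ) u • ga u (∑ i ∈ range n, ga (t ^ i) (b.Y (e.δ * c * l))) := fun u _ => by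
      rw [map_sum, smul_sum]
      exact sum_congr rfl fun i _ => by
        rw [Ra.sd_mul, s1 _ (pow_mem gn.1 i), mul_one, ga_mul]
    rw [sum_congr rfl e2, ← tr_apply]
    by_cases m : φ l ∈ b.Γ
    · obtain ⟨nm, L', h1, h2, h3, h4⟩ := split b.j b.iq o fb m ty
      obtain ⟨a1, -, a3, -, a5, -, a7⟩ := r2 _ b.j b.iq _ d0
      have co : ∀ L : Ideal (𝓞 b.K), (l : 𝓞 b.K) ∈ L → Cop (e.δ * c) L := fun L m =>
        ⟨fun z => hl.ne_zero (by simpa [z] using m), by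
          obtain ⟨u, v, k⟩ := (Nat.isCoprime_iff_coprime.2
            ((Nat.Prime.coprime_iff_not_dvd hl).2 l2)).map (Int.castRingHom (𝓞 b.K))
          simp only [eq_intCast, Int.cast_natCast] at k
          exact (Ideal.eq_top_iff_one _).2 (k ▸ Submodule.add_mem_sup (L.mul_mem_left _ m)
            (Ideal.mul_mem_left _ _ (Ideal.mem_span_singleton_self _)))⟩
      have m' := h4.ge (Ideal.mem_span_singleton_self _)
      have c1 := co _ (Ideal.mul_le_left m')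
      have c2 := co _ (Ideal.mul_le_right m')
      have hg := a7 (Q l) o.2.1 (fun e => o.1.ne_zero (by simpa [e] using o.2.2))
        (fun m => l2 (by exact_mod_cast P004S.ov_dvd o (a := (e.δ * c : ℕ)) (by exact_mod_cast m)))
        _ m 1 fun x => by rw [pow_one, nm]; exact fb x
      rw [pow_one] at hg
      obtain ⟨g', hg'⟩ := a1 L' c2
      have s := s1 _ ((a5 _ _ (co _ m') (a3 _ _ _ _ c1 c2 hg hg')).2 ⟨l, 0, by simp [h4]⟩)
      have s' : sd (ds e.δ) g' = sd (ds e.δ) (φ l) := by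
        rw [← one_mul (sd _ g'), ← Ra.sd_sq (ds e.δ) (φ l), mul_assoc, ← Ra.sd_mul, s, mul_one]
      have fx := b.fx _ d0 cop'
      rw [b.spl _ l n t d0 cop' hl l3 gn _ L' _ g' h1 h2 h3 h4 hg hg', map_sub, map_sub, map_zsmul,
        tr_ga f cm fx m, tr_ga f cm fx hg'.1, s', if_pos m]
      module
    · rw [(b.ine _ l n t d0 cop' hl l3 gn (inr _ _ o fb m)).1, map_zsmul, if_neg m, sub_zero]

/-- **row TR1** -/
theorem tr1 (r1 : RC1) (r2 : RC2) (r3 : RC3) : TR1 := fun e b c sq h Q φ hQ T T' hT hT' => by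
  rw [hp_eq r1 r2 b (Nat.pos_of_ne_zero sq.ne_zero) (Nat.coprime_of_dvd fun q a d d' =>
    (e.bad q a (h q (Nat.mem_primeFactors.2 ⟨a, d, sq.ne_zero⟩)).1).1 (d'.mul_right _)) hT',
    hp_one r1 r2 b hT, ← tr_apply, ← tr_apply, T1.tow r1 r2 r3 b Q φ hT c sq h hQ T' hT', smul_comm]

end Vale.Agent.P014T.Kx
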