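import Vale.Agent.P014T.Kx.Ker
import Vale.Agent.P014T.Kx.Tw
import Vale.Agent.P004F.Ch.Irr
import Vale.Agent.P004F.Es.Tyq
import Vale.Agent.P004R.Mu0

/-! # P014T, block K, row TR2: the local factor at a prime of the tower -/

set_option linter.all false

open NumberField Matrix
open scoped Classical

noncomputable section

namespace Vale.Agent.P014T.Kx

open Vale.Agent.P022 Vale.Agent.P004F
open Vale.Agent.P022D.W (dec phi_mem)
open Vale.Agent.P022E.GW (Ov Fb)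
open P004M.TE (Pt ga)
open P004T (ds)
open Bt (T2)
open Wm (Fx)

namespace Tr

/-- the fixed points of one element -/
theorem tl_le {A₀ B₀ A B : ℤ} (hD : 4 * (A₀ : ℚ) ^ 3 + 27 * (B₀ : ℚ) ^ 2 ≠ 0)
    (t : Pt A₀ B₀ ≃+ Pt A B) {g : GQ} {s : ℤ} (h : ∀ y, ga g (t y) = t (s • ga g y))
    {D : Subgroup GQ} (hg : g ∈ D) {k : ℕ}
    (hk : ¬ 2 ^ (k + 1) ∣ (s • P004M.TE.mt hD g - 1).det) : tl A B D ≤ 2 ^ k := by
  cases finite_or_infinite ↥(T2 A B ⊓ Fx A B D)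
  swap
  · exact Nat.card_eq_zero_of_infinite.trans_le (Nat.zero_le _)
  choose i hi using fun y : ↥(T2 A B ⊓ Fx A B D) => y.2.1
  obtain ⟨j, hj⟩ := Finite.exists_le i
  choose v hv using fun y : ↥(T2 A B ⊓ Fx A B D) => Tw.co_ex hD j (y := t.symm y) (by
    obtain ⟨r, e⟩ := pow_dvd_pow 2 (hj y)
    rw [← map_nsmul, e, mul_nsmul, hi, nsmul_zero, map_zero])
  have q : (s • P004M.TE.mt hD g - 1).map (Tw.rz j) = s • (P004M.TE.mt hD g).map (Tw.rz j) - 1 := by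
    rw [Matrix.map_sub _ (map_sub _), Matrix.map_one _ (map_zero _) (map_one _)]
    exact congrArg (· - 1) (Matrix.ext fun i j => map_zsmul (Tw.rz _) _ _)
  have z : ∀ y, (s • P004M.TE.mt hD g - 1).map (Tw.rz j) *ᵥ v y = 0 := fun y => Tw.co_inj hD j (by
    rw [q, sub_mulVec, one_mulVec, smul_mulVec, map_sub, map_zsmul, Tw.co_ga, hv, map_zero,
      sub_eq_zero]
    exact t.injective (by rw [← h, t.apply_symm_apply, y.2.2 g hg]))
  exact (Nat.card_le_card_of_injective (fun y => ⟨v y, z y⟩) fun y z e => Subtype.ext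
    (t.symm.injective (by rw [← hv, ← hv, Subtype.mk.inj e]))).trans ((ker _ _ k j).2 hk)

theorem ns {R : Type} [CommRing R] {p : Ideal R} (h : p.IsPrime) :
    ¬ ∃ I I' : Ideal R, I ⊔ I' = ⊤ ∧ I ≠ ⊤ ∧ I' ≠ ⊤ ∧ I * I' = p := fun ⟨I, I', a, b, c, d⟩ =>
  (h.mul_le.1 d.le).elim
    (fun k => c ((sup_eq_right.2 ((k.trans d.ge).trans Ideal.mul_le_right)).symm.trans a))
    fun k => b ((sup_eq_left.2 ((k.trans d.ge).trans Ideal.mul_le_left)).symm.trans a)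

variable {e : Crv} {b : Fld e} {q : ℕ} {Q : Ideal (𝓞 Qb)} {φ : GQ}

/-- the splitting type is read off from the Frobenius element -/
theorem typ {k : ℕ} (o : Ov q Q) (f : Fb q Q φ) (h2 : q ≠ 2) (hd : ¬ q ∣ b.δ')
    (h : P004K.Typ b.K q k) : (φ ∈ b.Γ → k + 1 = q) ∧ (φ ∉ b.Γ → k = q + 1) := by
  have := Fact.mk o.1
  obtain ⟨ω, u, v, s⟩ := Es.Tq.bs b o.1 h2 hd
  refine ⟨fun m => ?_, fun m => ?_⟩
  · have a := P004R.Mu.nu_fb o h2 f fun k => hd (Int.natCast_dvd_natCast.1 (dvd_neg.1 k))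
    rw [if_pos ((Ch.gk b).1 m)] at a
    exact (h.2.resolve_left fun k => ns k.1 (s.split (by
      simpa using ZMod.isSquare_of_jacobiSym_eq_one a))).2
  · exact (h.2.resolve_right fun k => ns (s.inert (Es.Tq.nsq b h2 hd o f m)) k.1).2

theorem det (o : Ov q Q) (f : Fb q Q φ) (h : q ∉ e.S) {s : ℤ} (hs : s * s = 1) :
    (s • e.r φ - 1).det = ((q + 1 - s * e.a q : ℤ) : ℤ_[2]) := by
  have h1 : (e.r φ).trace = e.a q := (e.bad q o.1 h).2.2 φ ⟨Q, o.2.1, o.2.2, f⟩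
  have h2 := Ch.det_frob e o.1 h ⟨Q, o.2.1, o.2.2, f⟩
  have h3 : (s : ℤ_[2]) * s = 1 := by exact_mod_cast congrArg (Int.cast : ℤ → ℤ_[2]) hs
  rw [trace_fin_two] at h1
  rw [det_fin_two] at h2 ⊢
  simp only [Matrix.sub_apply, Matrix.smul_apply, one_apply_eq, one_apply_ne zero_ne_one,
    one_apply_ne one_ne_zero]
  simp only [zsmul_eq_mul]
  push_cast
  linear_combination (s : ℤ_[2]) * s * h2 + q * h3 - s * h1

end Tr

open Tr

/-- **row TR2** -/
theorem tr2 : TR2 := fun e b A B A' B' t t' h h' m n q Q φ mn G o f => by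
  have h2 : q ≠ 2 := fun k => G.out (k ▸ e.two)
  obtain ⟨k, ty, dk⟩ := G.typ
  obtain ⟨p1, p2⟩ := typ o f h2 G.cop ty
  have s1 := Tw.sd_sq (ds e.δ) φ
  have s2 := Tw.sd_sq (-b.δ') φ
  generalize hz : (e.a q - if φ ∈ b.Γ then 2 * sd (ds e.δ) φ else 0) = z
  have key : ∀ s, s = sd (ds e.δ) φ ∨ s = sd (-b.δ') φ * sd (ds e.δ) φ →
      s * s = 1 ∧ (q : ℤ) + 1 - s * e.a q = k - s * z := fun s hs => by
    have ss : s * s = 1 := by
      rcases hs with rfl | rfl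
      · exact s1
      · linear_combination s2 + sd (-b.δ') φ ^ 2 * s1
    refine ⟨ss, ?_⟩
    by_cases c : φ ∈ b.Γ
    · rw [Tw.sd_eq_one.2 ((Ch.gk b).1 c), one_mul, or_self] at hs
      rw [← hz, if_pos c, ← p1 c, ← hs]
      push_cast
      linear_combination -2 * ss
    · rw [← hz, if_neg c, p2 c, sub_zero]
      rfl
  have dk' : (2 : ℤ) ^ m ∣ k := (pow_dvd_pow _ mn).trans (by exact_mod_cast dk)
  have nz : ¬ 2 ^ m ∣ z := fun d => G.gq (by
    obtain ⟨a, c⟩ := key _ (.inl rfl)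
    rw [show ((q : ℤ) + 1) ^ 2 - e.a q ^ 2 = (k - sd (ds e.δ) φ * z) * (q + 1 + sd (ds e.δ) φ * e.a q) by
      rw [← c]; linear_combination e.a q ^ 2 * a]
    exact (dvd_sub dk' (d.mul_left _)).mul_right _)
  obtain ⟨j, j1, j2⟩ := Nat.exists_not_and_succ_of_not_zero_of_exists (p := fun j => ¬ 2 ^ j ∣ z)
    (by simp) ⟨m, nz⟩
  rw [not_not] at j1
  have jm : j < m := not_le.1 fun l => nz ((pow_dvd_pow _ l).trans j1)
  have nd : ∀ s, s = sd (ds e.δ) φ ∨ s = sd (-b.δ') φ * sd (ds e.δ) φ →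
      ¬ 2 ^ (j + 1) ∣ (s • e.r φ - 1).det := fun s hs d => by
    obtain ⟨a, c⟩ := key s hs
    rw [det o f G.out a, c] at d
    have := ((dvd_sub_right ((pow_dvd_pow _ jm).trans dk')).1
      ((PadicInt.pow_p_dvd_int_iff (p := 2) _ _).1 d)).mul_left s
    rw [← mul_assoc, a, one_mul] at this
    exact j2 this
  have md := phi_mem o.1 o.2.1 f
  refine ⟨j, jm.le, ?_, j1⟩
  rw [show 4 = 2 * 2 from rfl, mul_pow]
  exact Nat.mul_le_mul (tl_le _ t (h φ) md (nd _ (.inl rfl))) (tl_le _ (t.trans t') (fun y => by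
    rw [AddEquiv.trans_apply, AddEquiv.trans_apply, h', h, ← map_zsmul, smul_smul]) md
      (nd _ (.inr rfl)))

end Vale.Agent.P014T.Kx
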