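import Vale.Agent.P014T.Kx.All0
import Vale.Agent.P014T.Kx.Tr2

/-! # P014T, block K: the closed term -/

namespace Vale.Agent.P014T.Kx

/-- **block K** -/
theorem kx_all : KX := kx0 tr2

end Vale.Agent.P014T.Kx
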