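import Vale.Agent.P014T.Kx.St
import Vale.Agent.P004F.Pt.Kd

/-! # P014T, block K: the export from the rows -/

set_option linter.all false

open NumberField
open scoped Classical

noncomputable section

namespace Vale.Agent.P014T.Kx

open Vale.Agent.P022 Vale.Agent.P004F
open Vale.Agent.P022D.W (dec)
open Vale.Agent.P022E.GW (Ov Fb)
open P004M.TE (Pt ga)
open P004F.Qx (Fk FG)

theorem fk_mul (fg : FG) {A B : ℤ} (hD : 4 * A ^ 3 + 27 * B ^ 2 ≠ 0) {P : Ideal (𝓞 Qb)}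
    (o : Ov 2 P) {κ : ℕ} (k0 : κ ≠ 0) (k2 : 2 ∣ κ) {y : Pt A B} (h : Fk P κ y) (k : ℕ) {r : ℤ}
    (hr : 2 ^ k ∣ r) : Fk P (2 ^ k * κ) (r • y) := by
  have F := (fg A B hD P o.2.1 fun z => by simpa [z] using o.2.2).2.2.2.2.2
  have a : ∀ k : ℕ, Fk P (2 ^ k * κ) (2 ^ k • y) := fun k => by
    induction k with
    | zero => simpa using h
    | succ k ih =>
      rw [pow_succ', mul_assoc, mul_smul]
      exact (((F _ (by positivity)).2.2 (k2.mul_left _) _).1 ih).1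
  obtain ⟨r, rfl⟩ := hr
  have s := fun y y' a b => ((F (2 ^ k * κ) (by positivity)).1 y y' a b).1
  have z := sub_self (2 ^ k • y) ▸ s _ _ (a k) (a k)
  rw [mul_comm _ r, mul_smul, show (2 : ℤ) ^ k • y = 2 ^ k • y by
    rw [← natCast_zsmul]; push_cast; rfl]
  induction r with
  | zero => rwa [zero_zsmul]
  | succ r ih =>
    have := s _ _ ih (s _ _ z (a k))
    rwa [zero_sub, sub_neg_eq_add, ← add_one_zsmul] at this
  | pred r ih => rw [sub_smul, one_smul]; exact s _ _ ih (a k)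

/-- **the export** -/
theorem kx (h1 : FX) (h2 : TR1) (h3 : TR2) (h4 : CVT) (h5 : KB) (fg : FG) : KX := by
  intro e b ha A B A' B' t t' P S S' s s' i T ht ht' hP hS hS' p1 p0 rk fin j0 sh1 sh0 s0 s0' hT hF
  obtain ⟨m, hm⟩ := h1 e b ha
  obtain ⟨c, c1, sq, crd, gp, fx⟩ := hm (i + m * m + m)
  have pr : ∀ q ∈ c.primeFactors, q.Prime := fun q => Nat.prime_of_mem_primeFactors
  have le : S ⊆ S' := hS' ▸ Finset.subset_union_left
  have mS : ∀ {p}, p ∈ S ↔ p ∈ e.S := by rw [hS]; exact List.mem_toFinset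
  have nS : ∀ q ∈ c.primeFactors, q ∉ S' := fun q hq h => by
    rw [hS', Finset.mem_union] at h
    exact h.elim (fun h => (gp q hq).out (mS.1 h)) fun h => (gp q hq).cop
      (Nat.dvd_of_mem_primeFactors h)
  choose! Q hQ using fun (q : ℕ) (h : q.Prime) => P004R.Mu.ex_pl h
  obtain ⟨P', e1, o⟩ : ∃ P' : ℕ → Ideal (𝓞 Qb), (∀ p ∈ S', P' p = P p) ∧
      ∀ p ∈ c.primeFactors, Ov p (P' p) := ⟨fun p => if p ∈ S' then P p else Q p,
    fun p h => if_pos h, fun p h => by simp only [nS p h, if_false]; exact hQ p (pr p h)⟩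
  choose! φ hφ using fun q h => P022D.W.exists_phi (o q h).1 (o q h).2.1 (o q h).2.2
  choose! k k1 k2 k3 using fun q h => h3 e b A B A' B' t t' ht ht' m _ q (P' q) (φ q)
    (Nat.le_add_left _ _) (gp q h) (o q h) (hφ q h)
  have K : ∑ q ∈ c.primeFactors, k q ≤ m * m :=
    (Finset.sum_le_card_nsmul _ _ _ k1).trans (Nat.mul_le_mul_right _ crd)
  have s2 : 2 ∈ e.S' := List.mem_filter.2 ⟨e.two, by simpa using e.ok.odd.not_two_dvd_nat⟩
  have X := fx (∑ q ∈ c.primeFactors, k q + i) (by omega) fun T' hT' => by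
    rw [h2 e b c sq (fun q h => ⟨(gp q h).out, (gp q h).cop⟩) P' φ (fun q h => ⟨o q h, hφ q h⟩)
      T T' hT hT', pow_add, mul_assoc]
    refine fk_mul fg e.par.disc (e.ov 2 e.two) (mul_ne_zero (by positivity) (pow_ne_zero _
      (List.prod_ne_zero fun z => Nat.not_prime_zero (e.ov 0 (List.mem_filter.1 z).1).1)))
      ((dvd_pow (List.dvd_prod s2) two_ne_zero).mul_left _) hF _ ?_
    rw [← Finset.prod_pow_eq_pow_sum]
    exact Finset.prod_dvd_prod_of_dvd _ _ k3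
  have T1 : b.T c = S ∪ c.primeFactors := by rw [hS]; rfl
  have T0 : b.T c ∪ b.δ'.primeFactors = S' ∪ c.primeFactors := by
    rw [T1, hS', Finset.union_right_comm]
  have pl : ∀ {A B S}, S ⊆ S' → Pl A B S P → Pl A B (S ∪ c.primeFactors) P' := fun l p =>
    ⟨p.disc, fun q h => (Finset.mem_union.1 h).elim (fun h => (e1 q (l h)).symm ▸ p.ov q h) (o q),
      Finset.mem_union_left _ p.two, fun q h n => p.bad q h (mt (Finset.mem_union_left _) n)⟩
  have sg : ∀ p ∈ e.σ, p ≠ 2 ∧ p ∈ e.S := fun p h =>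
    let ⟨a, b, _⟩ := Finset.mem_filter.1 h
    ⟨b, (List.mem_filter.1 (List.mem_toFinset.1 a)).1⟩
  have sg' : ∀ p ∈ insert 2 e.σ, p ∈ e.S := fun p h =>
    (Finset.mem_insert.1 h).elim (· ▸ e.two) fun h => (sg p h).2
  have e2 : ∀ p ∈ e.S, P' p = e.P p := fun p h => (e1 p (le (mS.2 h))).trans (hP p h)
  have e3 : P' 2 = P 2 := e1 2 p0.two
  have q1 := T1 ▸ pl le p1
  have q0 := T0 ▸ pl subset_rfl p0
  have r1 := sh1 _ _ (T1 ▸ Finset.subset_union_left) q1
  have r0 := sh0 _ _ (T0 ▸ Finset.subset_union_left) q0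
  obtain ⟨fw, Y⟩ := h5 ⟨A, B, A', B', -b.δ', t', b.Γ, b.c, b.T c, b.δ'.primeFactors, e.σ, P', ht',
    b.kd.gk, b.cc, b.c_out, q1, q0, Finset.disjoint_left.2 fun q h h' => by
      rw [T1, Finset.mem_union] at h
      exact h.elim (fun h => b.out_S (Nat.prime_of_mem_primeFactors h')
        (Nat.dvd_of_mem_primeFactors h') (mS.1 h))
        fun h => nS q h (hS' ▸ Finset.mem_union_right _ h'),
    fun g ⟨l, n, R, r, u⟩ => b.inert_mem r (fun z => n (z ▸ q0.two)) (fun z => n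
      (Finset.mem_union_right _ (r.1.mem_primeFactors z b.pos.ne'))) u,
    fun l h => by
      have r := q0.ov l (Finset.mem_union_right _ h)
      have d := Nat.dvd_of_mem_primeFactors h
      obtain ⟨τ, u⟩ := P022E.GW.Tg.ex_gn' r
      exact ⟨τ, u.1, fun m => one_ne_zero ((P004S.nu_tau r (e.ne_two (b.out_S r.1 d))
        (Int.squarefree_natAbs.1 (by simpa using b.adm.sq))
        (dvd_neg.2 (Int.natCast_dvd_natCast.2 d)) u).symm.trans ((b.kd.gk τ).1 m))⟩,
    fun p h => Finset.mem_erase.2 ⟨(sg p h).1, T1 ▸ Finset.mem_union_left _ (mS.2 (sg p h).2)⟩,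
    fun p h => e2 p (sg' p h) ▸ b.le p (sg' p h), fun z => by
      obtain ⟨q, h⟩ := Nat.nonempty_primeFactors.2 c1
      exact (gp q h).out (sg' q (z ▸ T1 ▸ Finset.mem_union_right _ h))⟩ rk fin (e3 ▸ j0)
    (r1 ▸ s0) (r0 ▸ s0')
  have sp : ∀ {A B S}, S ⊆ S' → ∏ p ∈ (S ∪ c.primeFactors).erase 2, tl A B (dec (P' p)) =
      (∏ p ∈ S.erase 2, tl A B (dec (P p))) * ∏ p ∈ c.primeFactors, tl A B (dec (P' p)) :=
    fun l => by
      rw [Finset.erase_union_distrib, Finset.erase_eq_of_notMem fun h => nS 2 h p0.two,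
        Finset.prod_union (Finset.disjoint_right.2 fun q h h' =>
          nS q h (l (Finset.mem_of_mem_erase h')))]
      exact congrArg (· * _) (Finset.prod_congr rfl fun p h => by
        rw [e1 p (l (Finset.mem_of_mem_erase h))])
  have Z : (∏ p ∈ c.primeFactors, tl A B (dec (P' p))) * ∏ p ∈ c.primeFactors,
      tl A' B' (dec (P' p)) ≤ 4 ^ ∑ q ∈ c.primeFactors, k q := by
    rw [← Finset.prod_mul_distrib, ← Finset.prod_pow_eq_pow_sum]
    exact Finset.prod_le_prod' k2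
  dsimp only [Su.W] at Y
  have Y := (Nat.mul_le_mul_right _ (Nat.mul_le_mul_left _
    (X.trans (h4 e b A B t ht P' _ c e2 fw)))).trans Y
  rw [r1, r0, e3, T0, T1, sp le, sp subset_rfl] at Y
  refine Nat.le_of_mul_le_mul_left ?_ (show 0 < 4 ^ ∑ q ∈ c.primeFactors, k q by positivity)
  calc _ = 4 * 4 ^ (∑ q ∈ c.primeFactors, k q + i) * tl A' B' ⊤ ^ 2 := by ring
    _ ≤ _ := Y
    _ = _ * (_ * _) := ?_
    _ ≤ _ := (Nat.mul_le_mul_left _ Z).trans_eq (mul_comm _ _)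
  ring

end Vale.Agent.P014T.Kx
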