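import Vale.Agent.P014T.Kx.St
import Vale.Agent.P014T.Kx.Tw

/-! # P014T, block K: rows TWX and CVT -/

set_option autoImplicit false
set_option linter.all false

open NumberField Matrix
open scoped Classical

noncomputable section

namespace Vale.Agent.P014T.Kx

open Vale.Agent.P022 Vale.Agent.P004F
open Vale.Agent.P022D.W (dec)
open P004M.TE (Pt ga)
open P004T (ds)
open P004F.Qx (Fk)
open Bt (T2 Zl Km)
open Wm (Fx)
open Pr (ac)

namespace Cv

variable {d A B A' B' A'' B'' : ℤ}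

/-- **the twist exists** -/
theorem tw_tw (h : Tw.Tq d A B A' B') : Tw d (Tw.tw h) := fun g y => by
  rw [Tw.ga_tw, map_zsmul]

theorem tw_symm {t : Pt A B ≃+ Pt A' B'} (h : Tw d t) : Tw d t.symm := fun g y =>
  t.injective (by
    have := h g (t.symm y)
    rw [t.apply_symm_apply, map_zsmul] at this
    rw [t.apply_symm_apply, this, smul_smul, Tw.sd_sq, one_smul])

theorem tw_trans {e : ℤ} (hd : d ≠ 0) (he : e ≠ 0) {t : Pt A B ≃+ Pt A' B'}
    {t' : Pt A' B' ≃+ Pt A'' B''} (h : Tw d t) (h' : Tw e t') : Tw (d * e) (t.trans t') :=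
  fun g y => by
    rw [AddEquiv.trans_apply, AddEquiv.trans_apply, h', h, ← map_zsmul, smul_smul,
      Tw.sd_mul_left hd he, mul_comm]

/-- two twists by the same `d` are isomorphic -/
theorem tw_eqv {t : Pt A B ≃+ Pt A' B'} {t' : Pt A B ≃+ Pt A'' B''} (h : Tw d t) (h' : Tw d t')
    (g : GQ) (y : Pt A' B') : ga g (t.symm.trans t' y) = t.symm.trans t' (ga g y) := by
  rw [AddEquiv.trans_apply, AddEquiv.trans_apply, h', tw_symm h, ← map_zsmul, smul_smul, Tw.sd_sq,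
    one_smul]

theorem tl_congr {D : Subgroup GQ} (t : Pt A B ≃+ Pt A' B')
    (h : ∀ g ∈ D, ∀ y, ga g (t y) = t (ga g y)) : tl A B D = tl A' B' D :=
  Nat.card_congr (t.toEquiv.subtypeEquiv fun y => and_congr
    (exists_congr fun k => by
      show _ ↔ 2 ^ k • t y = 0
      rw [← map_nsmul, t.map_eq_zero_iff])
    (forall₂_congr fun g hg => by
      show _ ↔ ga g (t y) = t y
      rw [h g hg, t.apply_eq_iff_eq]))

theorem tl_ne (ft : FT) (hd : d ≠ 0) (hD : 4 * A ^ 3 + 27 * B ^ 2 ≠ 0) {t : Pt A B ≃+ Pt A' B'}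
    (h : Tw d t) {p : ℕ} {P : Ideal (𝓞 Qb)} (o : P022E.GW.Ov p P) : tl A' B' (dec P) ≠ 0 :=
  tl_congr _ (fun g _ => tw_eqv (tw_tw (Tw.tq hd A B)) h g) ▸ ft _ _ p P ((Tw.tq hd A B).hD hD) o

/-- counting by fibres -/
theorem card_le {X Y F M : Type} [Finite Y] [Finite F] [AddCommGroup M] (f : X → Y) (m : X → M)
    (i : F → M) (h : ∀ x x', f x = f x' → ∃ u, i u = m x - m x')
    (j : ∀ x x', f x = f x' → m x = m x' → x = x') : Nat.card X ≤ Nat.card Y * Nat.card F := by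
  rcases isEmpty_or_nonempty X with _ | _
  · simp
  choose u hu using fun x => h x _ (Function.invFun_eq ⟨x, rfl⟩).symm
  rw [← Nat.card_prod]
  refine Nat.card_le_card_of_injective (fun x => (f x, u x)) fun x x' e => ?_
  obtain ⟨e1, e2⟩ := Prod.mk.inj e
  refine j x x' e1 ?_
  have := hu x
  rw [e2, hu, e1] at this
  exact (sub_left_inj.1 this).symm

end Cv

open Cv

/-- **row TWX** -/
theorem twx {d : ℤ} (hd : d ≠ 0) (A B : ℤ) : ∃ t : Pt A B ≃+ Pt (A * d ^ 2) (B * d ^ 3), Tw d t ∧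
    ∀ P : Ideal (𝓞 Qb), P.IsPrime → (d : 𝓞 Qb) ∉ P → ∀ κ y, Fk P κ (t y) ↔ Fk P κ y :=
  ⟨_, tw_tw (Tw.tq hd A B), fun _ a b => Tw.fk_tw _ a b⟩

/-- **row CVT** -/
theorem cvt (ft : FT) : CVT := fun e b A B t ht P k c hP fin => by
  have hD := hq e.par.disc
  let ι : (Fin 2 → ZMod (2 ^ k)) →+ Pt A B := t.toAddMonoidHom.comp (Tw.co hD k)
  have i0 : Function.Injective ι := t.injective.comp (Tw.co_inj hD k)
  have i1 : ∀ v, 2 ^ k • ι v = 0 := fun v => by
    show 2 ^ k • t _ = 0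
    rw [← map_nsmul, Tw.co_tors, map_zero]
  have i2 : ∀ g v, ι (ac ((e.rd g).map (PadicInt.toZModPow k)) v) = ga g (ι v) := fun g v => by
    have q : (e.rd g).map (Tw.rz k) = sd (ds e.δ) g • (P004M.TE.mt hD g).map (Tw.rz k) := by
      ext i j
      exact map_zsmul (Tw.rz k) _ _
    show t (Tw.co hD k ((e.rd g).map (Tw.rz k) *ᵥ v)) = ga g (t _)
    rw [q, smul_mulVec, map_zsmul, Tw.co_ga, ht]
  have i3 : ∀ g v, ι (ac ((e.rd g).map (PadicInt.toZModPow k) - 1) v) = ga g (ι v) - ι v :=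
    fun g v => by
    rw [← i2, ← map_sub]
    exact congrArg ι ((sub_mulVec _ _ _).trans (congrArg _ (one_mulVec v)))
  have hσ : ∀ p ∈ e.σ, p ∈ e.S := fun p hp =>
    (List.mem_filter.1 (List.mem_toFinset.1 (Finset.mem_filter.1 hp).1)).1
  have mem : ∀ x ∈ Zf b k c, (fun g => ι (x.1 g)) ∈ ZW A B b.Γ (b.T c) P e.σ := fun x hx => by
    refine ⟨⟨⟨⟨?_, fun g hg h hh => ?_, k, fun g _ => i1 _⟩, fun g hg => ?_⟩, ?_⟩, fun g hg => ?_⟩
    · obtain ⟨W, o, w⟩ := hx.lc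
      refine (IsLocallyConstant.iff_eventually_eq _).2 fun g₀ => ?_
      filter_upwards [(o.preimage ((continuous_const_mul (g₀ : GQ)⁻¹).comp
        continuous_subtype_val)).mem_nhds (show g₀ ∈ _ by simpa using W.one_mem)] with g hg
      have := hx.coc g₀ g₀.2 _ (mul_mem (inv_mem g₀.2) g.2)
      rw [mul_inv_cancel_left] at this
      rw [this, map_add, i2, w ((g₀ : GQ)⁻¹ * g) hg, map_zero, map_zero, add_zero]
    · show ι _ = ι _ + ga g (ι _)
      rw [hx.coc g hg h hh, map_add, i2]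
    · show ι _ = 0
      rw [hg.elim (Cc.out hx.toCc g) (hx.unr g), map_zero]
    · refine AddSubgroup.mem_iInf.2 fun p => AddSubgroup.mem_iInf.2 fun hp => ⟨ι (x.2 ⟨p, hp⟩), ?_⟩
      rw [hP p (hσ p hp)]
      exact fun g hg => (congrArg ι (hx.sp ⟨p, hp⟩ g hg)).trans (i3 _ _)
    · rw [hP 2 e.two] at hg
      show ι _ = 0
      rw [show x.1 g = 0 from funext fun i => (hx.sv g hg i).trans (smul_zero _), map_zero]
  have : ∀ p : e.σ, Finite ↥(T2 A B ⊓ Fx A B (dec (P p))) := fun p =>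
    Nat.finite_of_card_ne_zero (tl_ne ft (P004T.ds_ne e.ok) e.par.disc ht
      (hP p (hσ p p.2) ▸ e.ov p (hσ p p.2)))
  refine (card_le (F := ∀ p : e.σ, ↥(T2 A B ⊓ Fx A B (dec (P p))))
    (fun x : Zf b k c => (⟨_, mem x x.2⟩ : ZW A B b.Γ (b.T c) P e.σ))
    (fun x p => ι (x.1.2 p)) (fun u p => (u p : Pt A B)) (fun x x' h => ?_)
    fun x x' h h' => ?_).trans (le_of_eq ?_)
  · refine ⟨fun p => ⟨ι (x.1.2 p) - ι (x'.1.2 p), ⟨k, by rw [nsmul_sub, i1, i1, sub_zero]⟩,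
      fun g hg => ?_⟩, rfl⟩
    rw [hP p (hσ p p.2)] at hg
    have : ι (x.1.1 g) = ι (x'.1.1 g) := congrFun (congrArg Subtype.val h) g
    rw [x.2.sp p g hg, x'.2.sp p g hg, i3, i3] at this
    rw [map_sub]
    exact sub_eq_sub_iff_sub_eq_sub.1 this
  · exact Subtype.ext (Prod.ext (funext fun g => i0 (congrFun (congrArg Subtype.val h) g))
      (funext fun p => i0 (congrFun h' p)))
  · rw [Nat.card_pi]
    exact congrArg _ (Finset.prod_coe_sort e.σ fun p => tl A B (dec (P p)))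

end Vale.Agent.P014T.Kx
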