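import Vale.Agent.P014T.Kx.St
import Vale.Agent.P004F.Es.Es

/-! # P014T, block K: the Kolyvagin classes with the value at `T = 0` -/

set_option linter.all false

open NumberField Matrix PowerSeries Finset
open scoped Classical Pointwise

noncomputable section

namespace Vale.Agent.P014T.Kx

open Vale.Agent.P022 Vale.Agent.P004K Vale.Agent.P004F Vale.Agent.P004F.Es
open Vale.Agent.P027M.S (Inert)
open Vale.Agent.P022D.W (dec)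
open Vale.Agent.P022E.GW (Ov Fb)
open P004M.TE (Pt ga)
open P004T (ds)
open Qx (zf Fk Ur FG FR dep op)
open Ra (sd_mul sd_sq)

/-- division by `2 ^ k` in the formal group -/
theorem half (fg : FG) {A B : ℤ} (hD : 4 * A ^ 3 + 27 * B ^ 2 ≠ 0) {P : Ideal (𝓞 Qb)} (hP : Ov 2 P)
    {κ : ℕ} (h0 : κ ≠ 0) (h2 : 2 ∣ κ) (k : ℕ) (y : Pt A B) (hy : Fk P (2 ^ k * κ) y) :
    ∃ w, Fk P κ w ∧ 2 ^ k • w = y := by
  induction k generalizing y with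
  | zero => exact ⟨y, by simpa using hy, by simp⟩
  | succ k ih =>
    rw [pow_succ', mul_assoc] at hy
    obtain ⟨v, a1, a2, -⟩ := (((fg A B hD P hP.2.1 (ov_ne hP)).2.2.2.2.2 (2 ^ k * κ)
      (by positivity)).2.2 (h2.mul_left _) y).2 hy
    obtain ⟨w, a3, rfl⟩ := ih v a1
    exact ⟨w, a3, by rw [← a2, pow_succ, mul_nsmul]⟩

theorem halfF (fg : FG) {A B : ℤ} (hD : 4 * A ^ 3 + 27 * B ^ 2 ≠ 0) {P : Ideal (𝓞 Qb)}
    (hP : Ov 2 P) {κ : ℕ} (h0 : κ ≠ 0) (h2 : 2 ∣ κ) {F : AddSubgroup (Pt A B)} {Z : AddSubgroup Qb}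
    (l : L2 P κ F Z) {k : ℕ} {y : Pt A B} (hF : y ∈ F) (hy : Fk P (2 ^ k * κ) y) :
    ∃ w ∈ F, 2 ^ k • w = y := by
  obtain ⟨w, a, rfl⟩ := half fg hD hP h0 h2 k y hy
  refine ⟨w, (l.mem _).2 ⟨a, fun g hg => ?_⟩, rfl⟩
  obtain ⟨a0, -, -, -, -, f⟩ := fg A B hD P hP.2.1 (ov_ne hP)
  obtain ⟨a1, a2, a3⟩ := f κ h0
  let F' : AddSubgroup (Pt A B) := .ofSub {y | Fk P κ y}
    ⟨0, a0, 1, 0, (Ideal.ne_top_iff_one P).1 hP.2.1.ne_top, by simp [zf]⟩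
    fun x a y b => sub_eq_add_neg x y ▸ (a1 x y a b).1
  refine sub_eq_zero.1 (tf_pow (F := F') (k := k) (fun y h => ((a3 h2 y).1 h).2)
    (a1 _ _ (a2 g (P022D.W.inP_le_dec (P := P) hg) w a) a).1 ?_)
  rw [nsmul_sub, ← map_nsmul, ((l.mem _).1 hF).2 g hg, sub_self]

theorem val_abs {G E : Type} [Group G] [AddCommGroup E] [DistribMulAction G E] {F : AddSubgroup E}
    {φ : G} {j k d : ℕ} {e y : E} {a : ℕ → ℤ} (he : Fe (2 ^ k) F φ d e) (hk : k ≤ j)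
    (c : Co (2 ^ j) F φ d e y a) (hv : ∃ v ∈ F, 2 ^ k • v = y) : ((2 ^ k : ℕ) : ℤ) ∣ a 0 := by
  obtain ⟨w, hw, e1⟩ := c
  obtain ⟨v, hv, e2⟩ := hv
  exact he.ind a _ (sub_mem hv (nsmul_mem hw (2 ^ (j - k)))) (by
    rw [nsmul_sub, e2, e1, ← mul_nsmul', ← pow_add, Nat.add_sub_cancel' hk, add_sub_cancel_right])
    0 he.pos

variable {e : Crv} {b : Fld e} {j c : ℕ} {Ψ : GQ → Rj j}
  (h : b.Chr j c Ψ) (r1 : RC1) (ty : TYQ)
  {F S : AddSubgroup (Pt e.A e.B)} {U U' T : Finset GQ}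
  (hS : ∀ m : Finset (b.Kp j c Ψ), dp b (b.Y (cd m)) ∈ cor S b.Γ)
  (fU : Fr b.Γ (Hc b.j (cd (∅ : Finset (b.Kp j c Ψ)))) U (ps e Ψ))
  {Z : AddSubgroup Qb} {e₀ : Pt e.A e.B} (l : L2 (e.P 2) (e.S'.prod ^ 2) F Z)
  (he : ∀ k, Fe (2 ^ k) F (b.φ 2) (2 ^ (2 * j)) e₀) (h0 : S ≤ F)
  (fU' : Fr b.Γ (Hk h) U' (ps e Ψ))
  (fT : Fr (Hk h) (Hc b.j (cd (∅ : Finset (b.Kp j c Ψ)))) T fun _ => (1 : ℤ))
  {cc : GQ → ℕ → ℤ} (hc' : ∀ u ∈ b.Γ, Co (2 ^ j) F (b.φ 2) (2 ^ (2 * j)) e₀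
  (u • ∑ v ∈ T, v • XX (dp b) (∅ : Finset (b.Kp j c Ψ))) (cc u))

include r1 fU fU' fT in
theorem hp_xx : ∑ u ∈ U', sd (ds e.δ) u • u • ∑ v ∈ T, v • XX (dp b) (∅ : Finset (b.Kp j c Ψ)) =
    hp b U (e.δ * c) := by
  have a1 := tr_sum (A := ⊤) (β := id) fU fU' fT (fun _ _ => trivial) (fun _ _ _ _ => rfl)
    (fun u _ g hg => XX_fx h r1 u g hg) (θ := sd (ds e.δ))
    fun u hu g hg => by rw [sd_mul, hg.2.2, mul_one]
  refine a1.symm.trans (sum_congr rfl fun u hu => ?_)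
  rw [XX_empty, ga_eq, id]

omit h in
theorem val_end {k : ℕ} {a : ℤ} (h1 : ∀ g ∈ U', Ψ g - 1 ∈ Ideal.span {mj j X})
    (ha : (∑ u ∈ U', sd (ds e.δ) u • cc u) 0 = ((2 ^ k : ℕ) : ℤ) * a) :
    ∑ u ∈ U', ps e Ψ u * cc u 0 ∈ Ideal.span {(2 : Rj j) ^ k, mj j X} := by
  have a2 := congrArg (Int.cast : ℤ → Rj j) ha
  rw [Finset.sum_apply, Int.cast_sum] at a2
  push_cast at a2
  obtain ⟨I, hI⟩ : ∃ I, I = Ideal.span {(2 : Rj j) ^ k, mj j X} := ⟨_, rfl⟩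
  have i1 : (2 : Rj j) ^ k ∈ I := hI ▸ Ideal.subset_span (Set.mem_insert _ _)
  have i2 : mj j X ∈ I := hI ▸ Ideal.subset_span (Set.mem_insert_of_mem _ rfl)
  rw [← hI, ← sub_add_cancel (∑ u ∈ U', ps e Ψ u * cc u 0)
    (∑ u ∈ U', (((sd (ds e.δ) u • cc u) 0 : ℤ) : Rj j)), ← sum_sub_distrib, a2]
  refine add_mem (sum_mem fun u hu => ?_) (I.mul_mem_right _ i1)
  obtain ⟨x, hx⟩ := Ideal.mem_span_singleton'.1 (h1 u hu)
  convert I.mul_mem_left (x * (sd (ds e.δ) u * cc u 0)) i2 using 1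
  rw [ps, Pi.smul_apply, smul_eq_mul, mul_right_comm x, hx]
  push_cast
  ring

include r1 ty hS fU l he h0 fU' fT hc' in
theorem t_val (fg : FG) : Vl b j c Ψ (∑ u ∈ U', ps e Ψ u * cc u 0) := by
  intro h1 k hk hD
  haveI := hc_nrm h r1 ∅
  have hM : b.Inj (∅ : Finset (b.Kp j c Ψ)) := fun _ a => absurd a (notMem_empty _)
  have i := iv_tr h r1 ty hS fU fU' fT hM
  have m := sum_mem fun u hu => zsmul_mem (h0 (cor_le (i.cj (fU'.mem u hu)))) (sd (ds e.δ) u)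
  have e2 := Co.sum fun u hu => (hc' u (fU'.mem u hu)).zsmul (sd (ds e.δ) u)
  rw [hp_xx h r1 fU fU' fT] at m e2
  have e3 := hD U (tv fU)
  have e4 := halfF fg e.par.disc (ov2 e) kap_ne kap_two l m e3
  obtain ⟨a, ha⟩ := val_abs (he k) hk e2 e4
  exact val_end (fun u hu => h1 u (fU'.mem u hu)) ha

/-- **the Kolyvagin classes** -/
theorem esx (fg : FG) (fr : FR) (idx : P004F.IDX) (spl : SPL) (r1 : RC1) (gns : GNS) (ty : TYQ) (red : RED)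
    (coo : COO) (tow : TOW) (lam : LAM) : ESX := fun e b => by
  obtain ⟨F, Z, l⟩ := ex_l2 fg e.par.disc (ov2 e) (kap_ne (e := e)) kap_two
  obtain ⟨C, hC, ud⟩ := ex_ud (P004M.TE.dbl_surj two_ne_zero (hq e.par.disc)) l.tf
  obtain ⟨N, N0, hN⟩ := idx _ _ e.par.disc _ _ (ov2 e) (fb2 b) _ 2 (kap_ne (e := e)) two_ne_zero
  obtain ⟨c₂, N, odd, rfl⟩ := Nat.exists_eq_two_pow_mul_odd N0
  obtain ⟨c₁, sp⟩ := exists_imp_of_imp_exists fun h => spl e h _ (kap_ne (e := e))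
  have σS : ∀ p ∈ e.σ, p ∈ e.S' ∧ p ≠ 2 := fun p hp =>
    ⟨List.mem_toFinset.1 (mem_filter.1 hp).1, (mem_filter.1 hp).2.1⟩
  choose! K K1 K2 K3 using fun p (hp : p ∈ e.σ) =>
    ex_K1 fg e.par.disc (e.ov p (mem_S'.1 (σS p hp).1).1) (σS p hp).2
  refine ⟨c₁ + c₂, fun j hj => ?_⟩
  obtain ⟨ι, i1, i2, i3, i4⟩ := coo e j
  obtain ⟨e₀, he, ex⟩ := l.gen fr e.par.disc (ov2 e) kap_ne kap_two (fb2 b)
    (f := 2 ^ (2 * j)) (by positivity)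
  have kd : Kd (2 ^ j) C ι (rr e j) := ⟨ud.pow j, fun x a y => i1 x y a, i2⟩
  refine ⟨ee b C ι e₀, fun c Ψ h => ?_⟩
  obtain ⟨U, fU⟩ := ex_frm h r1 gns ∅
  obtain ⟨⟨U', fU'⟩, T, fT⟩ := ex_frk h r1 gns
  have h0 : F ⊓ ⨅ p ∈ e.σ, K p ≤ F := inf_le_left
  have hS : ∀ m : Finset (b.Kp j c Ψ), dp b (b.Y (cd m)) ∈ cor (F ⊓ ⨅ p ∈ e.σ, K p) b.Γ :=
    fun m g hg => by
      haveI := hc_nrm h r1 m
      have := b.qx _ (cd_pos h m) (cd_cop h m) g hg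
      exact ⟨(l.mem _).2 ⟨this 2 two_S', ur_fx h r1 ty (fx_smul g (fx_op dep_op (Y_fx h m)))⟩,
        AddSubgroup.mem_iInf.2 fun p => AddSubgroup.mem_iInf.2 fun hp =>
          (K1 p hp _).2 (this p (σS p hp).1).1⟩
  have hF := h0.trans hC
  choose! cc hc using fun M => ex_co h r1 ty hS fU hj h0 fU' fT (ex j) (M := M)
  choose μ hμ using fun M (p : e.σ) => exists_imp_of_imp_exists fun hM =>
    kk_sp h r1 ty hS hF kd fU (M := M) hM (mem_S'.1 (σS p p.2).1).1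
      (inf_le_right.trans (biInf_le _ p.2)) (K2 p p.2) (K3 p p.2)
  have h1 : b.Inj (∅ : Finset (b.Kp j c Ψ)) := fun _ a => absurd a (notMem_empty _)
  refine ⟨kk C ι U, fun M => ∑ u ∈ U', ps e Ψ u * cc M u 0, μ, ⟨
    ee_coc h r1 gns ty l he kd hC hj, ee_lc he kd hC _, fun a k hk s v hs => ?_,
    fun M hM => ⟨kk_cc h r1 ty hS hF kd fU red hM,
      fun g => kk_sv h r1 ty hS kd fU gns l he h0 fU' fT hM (hc M hM) hC, fun p => hμ M p hM⟩,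
    fun M hM k => kk_kf h r1 ty hS hF kd fU red hM, fun M k => kk_rel h r1 ty hS hF kd fU red,
    fun a M hM ψ hψ => ?_,
    fun χ a n => t_an h r1 ty hS fU l he hj h0 fU' fT (hc _ h1) lam χ a,
    t_tor h r1 ty hS fU l he h0 fU' fT (hc _ h1) tow⟩,
    t_val h r1 ty hS fU l he h0 fU' fT (hc _ h1) fg⟩
  · rw [pow_add, mul_assoc]
    exact (ee_free h r1 gns ty l he kd hC hj odd hN i3 i4 a hk s v hs).mul_left _
  · rw [hψ, mul_comm (sd _ _ : Rj j), add_comm c₁, pow_add, mul_assoc]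
    exact (t_dv h r1 ty hS fU gns l he hj h0 fU' fT (ex j) hM (hc M hM) (sp a)).mul_left _

end Vale.Agent.P014T.Kx
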