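import Vale.Agent.P014T.Kx.St
import Vale.Agent.P014T.Kq.Eq
import Vale.Agent.P004F.Pa.Sqx
import Vale.Agent.P004F.Pa.Rk1

/-! # P014T, block K: row FX -/

set_option linter.all false

open NumberField Matrix Filter PowerSeries Submodule Set
open scoped Classical Pointwise

noncomputable section

namespace Vale.Agent.P014T.Kx

open Vale.Agent.P022 Vale.Agent.P004K Vale.Agent.P004F Vale.Agent.P004F.Pa
open Vale.Agent.P022D.W (dec)
open Pat (U Sy Im U_of U_ge U_fin U_bdd U_ch)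
open Pr (ac)
open PadicInt (toZModPow)
open Pa.Sx Pa.R1

/-- the perturbed tower with the value of the Euler system -/
def SQV : Prop := ∀ (e : Crv) (b : Fld e), b.Anc → ∃ s : Sq b,
  ∀ᶠ j in U, Vl b (j + 1) (s.C j) (s.Ψ j) (s.t j ∅)

theorem sqv (r1 : RC1) (r2 : RC2) (h1 : ESX) (h2 : PE) (h3 : DPL) (h4 : CNT) (h5 : SEP) : SQV := by
  intro e b ⟨m, B, c, χ, tw, up, J₀, lo⟩
  have T : Tendsto (fun j => 2 * (j + 1)) atTop atTop :=
    tendsto_atTop_mono (fun j => by show j ≤ _; omega) tendsto_id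
  replace tw := U_of (T.eventually tw)
  replace lo := U_of (T.eventually lo)
  replace up := fun J => U_of (T.eventually (up J))
  generalize hc : (fun j => c (2 * (j + 1))) = c' at *
  generalize hχ : (fun j => χ (2 * (j + 1))) = χ' at *
  simp only [congrFun hc, congrFun hχ] at tw lo up
  clear hc hχ c χ
  rename' c' => c, χ' => χ
  obtain ⟨k, m', k0, pe⟩ := h2 e b m
  obtain ⟨c₀, es⟩ := h1 e b
  choose ε es using fun j => es (j + 1) j.succ_pos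
  obtain ⟨g, i, gv, β0⟩ := bet e b c₀ (fun j => ps (j + 1) (χ j) 0)
    (fun j => ε j (ps (j + 1) (χ j) 0 (b.φ 2))) (.of_forall fun j g _ => ps_X _ _ _ g)
    (tw.mono fun j t => let ⟨_, _, _, a⟩ := es j _ _ (chr0 t); a.1.free fun g _ => ps_X _ _ _ g)
  have tw' := tw.mono fun j t => tw_mono (le_max_left m m') t
  obtain ⟨y, sep⟩ := h5 e b _ k c χ _ k0 β0 tw'
  obtain ⟨x, hx⟩ := U_ch (α := fun _ => ℕ × (GQ → ℕ))
    (P := fun j x => b.Pe (max m m') k y (2 * (j + 1)) (c j) (χ j) x.1 x.2) ((tw.and (U_ge m')).mono fun j a =>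
    let ⟨q, χ', p⟩ := pe y _ _ _ (by omega) a.1; ⟨(q, χ'), pe_mono (le_max_right m m') p⟩)
  have chr := (tw.and hx).mono fun j a => chr1 r1 a.1 a.2
  have p2 := P022D.W.phi_mem Nat.prime_two (e.ov 2 e.two).2.1 (b.ch.frb 2 e.two)
  obtain ⟨z, hz⟩ := U_ch (α := fun j => (_ → GQ → Fin 2 → Rj (j + 1)) × (_ → Rj (j + 1)) ×
      (_ → e.σ → Fin 2 → Rj (j + 1))) (P := fun j z => b.Es c₀ (j + 1) (c j * (x j).1)
      (ps (j + 1) (χ j) (x j).2) (ε j (ps (j + 1) (χ j) 0 (b.φ 2))) z.1 z.2.1 z.2.2 ∧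
      Vl b (j + 1) (c j * (x j).1) (ps (j + 1) (χ j) (x j).2) (z.2.1 ∅))
    ((chr.and hx).mono fun j a => let ⟨κ, t, μ, p⟩ := es j _ _ a.1
      ⟨(κ, t, μ), ps_dec r1 r2 a.2 p2 ▸ p.1, p.2⟩)
  obtain ⟨v, hv⟩ := U_ch (hx.mono fun j a => a.xq)
  obtain ⟨v, -, ev⟩ := U_bdd v (hv.mono fun j a => a.1.le)
  replace hv := (hv.and ev).mono fun j a => a.2 ▸ a.1.2
  obtain ⟨l, hl⟩ := U_ch lo
  obtain ⟨l, -, el⟩ := U_bdd l (C := B) ((hl.and (up J₀)).mono fun j a => by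
    have := (Nat.pow_le_pow_iff_right one_lt_two).1 (a.1.1.trans a.2); omega)
  replace hl := (hl.and el).mono fun j a => a.2 ▸ a.1
  have big : ∀ n, ∀ᶠ j in U, n < 2 ^ (2 * (j + 1)) := fun n => (U_ge n).mono fun j a =>
    lt_of_le_of_lt (by omega) Nat.lt_two_pow_self
  set J := max J₀ (B + 4 * 2 ^ v + 1) with hJ
  have hJ' : B + 4 * 2 ^ v < J := Nat.lt_of_succ_le (le_max_right _ _)
  have cnt := (tw.and (hv.and ((big J).and (up J)))).mono fun j a =>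
    h4 e b _ _ _ _ _ v B J J₀ a.1 a.2.1 a.2.2.1.le (le_max_left _ _) hJ' a.2.2.2
  refine ⟨⟨max m m', k, c₀, B + 4 * 2 ^ v, J, l + 2 * 2 ^ v, y, c, χ, fun j => (x j).1,
    fun j => (x j).2, _, fun j => (z j).1, fun j => (z j).2.1, fun j => (z j).2.2, tw', hx, chr,
    hz.mono fun j a => a.1, ?_, hJ', cnt.mono fun j a => a.2, (cnt.and hl).mono fun j a => ?_,
    g, i, gv, _, ?_, β0, sep _ _ hx chr⟩, hz.mono fun j a => a.2⟩
  · filter_upwards [hz, tw, hv, hl, big (l + 2 * 2 ^ v), U_ge (l + 2 * 2 ^ v)] with j a t s u w w'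
    exact a.1.an (χ j) (fun g _ => ps_two _ _ _ g) _ (Nat.lt_succ_of_le w')
      (h3 e b _ _ _ _ _ v l t s w u.2)
  · rw [mul_add, pow_add, ← mul_assoc]
    exact (Nat.mul_le_mul_right _ a.2.1).trans a.1.1
  · refine congrArg det (congrArg Matrix.of (funext fun a => ?_))
    rw [show um (fun j => b.aa (j + 1) (ps (j + 1) (χ j) 0) (g a j)) =
      um (fun j => b.aa (j + 1) (ps (j + 1) (χ j) (x j).2) (g a j)) from
      Sy.succ.um_ae (hx.mono fun j p => congrArg (· • _) (ps_dec r1 r2 p (gv a j)).symm)]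

theorem sq_dvd (S : Sys) : S.Θ0 ^ 2 ∣ ((S.o.Mx S.γ).map constantCoeff).det := by
  by_cases h : ((S.o.Mx S.γ).map constantCoeff).det = 0
  · rw [h]; exact dvd_zero _
  have := map_dvd constantCoeff (Kq.kg_eq S fun y y' a _ =>
    ⟨1, 0, by simp, by simp [eq_zero_of_mulVec_eq_zero h a]⟩).dvd'
  rwa [map_pow, RingHom.map_det] at this

/-- the kernel of the matrix of a stage without Kolyvagin primes -/
theorem card {e : Crv} {b : Fld e} {k j : ℕ} (h : k ≤ j + 1) {c : ℕ} {Ψ : GQ → Rj (j + 1)} {ε}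
    {ι : Type} [Fintype ι] [DecidableEq ι] [IsEmpty ι] {kp : ι → b.Kp (j + 1) c Ψ} {r : ℕ}
    {d : Rw _ e.σ ι r} (u : Un b c Ψ ε kp d) (hΨ : ∀ g, ej h (Ψ g) = 1) (s) :
    Nat.card {y // (Matrix.of (Sum.elim (d.Rm b Ψ) fun o : Option (ι × Fin 2) =>
      o.elim d.t s)).map (ej h) *ᵥ y = 0} = Nat.card (Zf b k c) := by
  let _ := (ej h).toAlgebra
  have B := u.bij (ZMod (2 ^ k))
  have T : Tk b c _ kp = b.T c := by simp [Tk]
  have a : ∀ g (x : Fin 2 → ZMod (2 ^ k)),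
      ac (b.aa _ Ψ g) x = ac ((e.rd g).map (toZModPow k)) x :=
    fun g x => by rw [← ej_aa (b := b) h (hΨ g)]; rfl
  have a' : ∀ g (x : Fin 2 → ZMod (2 ^ k)),
      ac (b.aa _ Ψ g - 1) x = ac ((e.rd g).map (toZModPow k) - 1) x := fun g x => by
    rw [← ej_aa (b := b) h (hΨ g), ← Matrix.map_one (ej h) (map_zero _) (map_one _),
      ← Matrix.map_sub _ (map_sub _)]
    rfl
  have S : ∀ (x : GQ → Fin 2 → ZMod (2 ^ k)) m, b.Sel (Tk b c _ kp) (b.aa _ Ψ) ε x 0 m ↔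
      (x, m) ∈ Zf b k c := fun x m => by
    rw [T]
    exact ⟨fun q => ⟨⟨by simpa only [a] using q.coc, q.out, q.lc, q.unr⟩,
        by simpa using q.sv, by simpa only [a'] using q.sp⟩,
      fun q => ⟨⟨by simpa only [a] using q.coc, q.1.out, q.lc, q.unr⟩,
        by simpa using q.sv, by simpa only [a'] using q.sp⟩⟩
  have K : ∀ y : Ix r e.σ ι → ZMod (2 ^ k), (Matrix.of (Sum.elim (d.Rm b Ψ)
      fun o : Option (ι × Fin 2) => o.elim d.t s)).map (ej h) *ᵥ y = 0 ↔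
      ac (d.Rm b Ψ) y = 0 ∧ ∑ i, d.t i • y i = 0 := fun y =>
    ⟨fun q => ⟨funext fun i => congrFun q (.inl i), congrFun q (.inr none)⟩, fun q => funext fun
      | .inl i => congrFun q.1 i
      | .inr none => q.2
      | .inr (some x) => isEmptyElim x.1⟩
  refine Nat.card_congr (Equiv.ofBijective (fun y => ⟨(fun g => ac (d.u g) y.1,
    fun p => ac (d.m p) y.1), (S _ _).1 (((K _).1 y.2).2 ▸ B.mapsTo ((K _).1 y.2).1)⟩)
    ⟨fun y z q => Subtype.ext (B.injOn ((K _).1 y.2).1 ((K _).1 z.2).1 ?_), fun x => ?_⟩)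
  · obtain ⟨q1, q2⟩ := Prod.mk.inj (Subtype.mk.inj q)
    simp only [q1, q2, ((K _).1 y.2).2, ((K _).1 z.2).2]
  · obtain ⟨y, q1, q2⟩ := B.surjOn (a := (x.1.1, 0, x.1.2)) ((S _ _).2 x.2)
    simp only [Prod.mk.injEq] at q2
    exact ⟨⟨y, (K _).2 ⟨q1, q2.2.1⟩⟩, Subtype.ext (Prod.ext q2.1 q2.2.2)⟩

theorem two_dvd {i k j : ℕ} (h : k ≤ j + 1) (hi : i ≤ k) {t : Rj (j + 1)} {x : ℤ_[2]}
    (ht : t ∈ Ideal.span {(2 : Rj (j + 1)) ^ i, mj (j + 1) X}) (e : ej h t = toZModPow k x) :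
    2 ^ i ∣ x := by
  obtain ⟨a, a', rfl⟩ := Ideal.mem_span_pair.1 ht
  have z : ej h (mj (j + 1) X) = 0 := by
    change e0 k _ = 0
    simp [e0]
  obtain ⟨y, hy⟩ := ZMod.ringHom_surjective (toZModPow (p := 2) k) (ej h a)
  rw [map_add, map_mul, map_mul, z, mul_zero, add_zero, map_pow, map_ofNat, ← hy,
    ← map_ofNat (toZModPow (p := 2) k) 2, ← map_pow, ← map_mul, ← sub_eq_zero, ← map_sub,
    ← RingHom.mem_ker, PadicInt.ker_toZModPow, Ideal.mem_span_singleton] at e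
  have := dvd_sub (dvd_mul_left (2 ^ i) y) ((pow_dvd_pow _ hi).trans (by exact_mod_cast e))
  rwa [sub_sub_cancel] at this

/-- **row FX** -/
theorem fx (h0 : KER) (h1 : SQV) (h2 : GLB) (h3 : LMX) (h4 : LOK) (h5 : LIS) (h6 : LEX) (h7 : NUM) :
    FX := by
  intro e b ha
  obtain ⟨s, hv⟩ := h1 e b ha
  obtain ⟨n, θ, hn, g⟩ := h2 e b s
  obtain ⟨w, hw, hi⟩ := h5
  obtain ⟨r, d, f, s', κ, un, -⟩ := h3 e b s w hw Empty (fun _ => some fun i => i.elim)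
    (.of_forall fun j => ⟨_, rfl, fun i => i.elim⟩)
  let L : s.Lm w := ⟨Empty, r, _, d, f, s', κ, un⟩
  have ho : IsEmpty L.ι := inferInstanceAs (IsEmpty Empty)
  obtain ⟨n1, n2, n3, -⟩ := h7 e b s w n L ho
  have D : constantCoeff (L.pk.t ⬝ᵥ L.pk.κ ∅) ^ 2 ∣ ((L.pk.Mx (s.γ n)).map constantCoeff).det := by
    refine sq_dvd ⟨ℕ → b.Γ, e.σ, s.γ n, θ, g.θθ, g.nH, g.ρH, g.θH, g.sah, g.spn, g.nis, g.gen, g.bv0,
      g.av, g.ap, s.gs, s.is, s.gv, s.β, s.βe, s.β0, s.sep, range Sq.Lm.pk, ?_, fun π a a' => ?_, ?_,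
      L.pk, ⟨L, rfl⟩, ho, s.l, n1, n2, n3⟩
    · rintro _ ⟨L, rfl⟩
      exact h4 e b s w n θ hw hn g L
    · obtain ⟨η, k1, k2⟩ := hi e b s n π a a'
      exact ⟨η, k1, by rintro _ ⟨L, rfl⟩; exact k2 L⟩
    · rintro _ ⟨L, rfl⟩ h hh
      obtain ⟨L', k⟩ := h6 e b s w n θ hw g L h hh
      exact ⟨_, ⟨L', rfl⟩, k⟩
  have A : L.pk.Mx (s.γ n) = um fun j => Matrix.of (Sum.elim ((L.d j).Rm b (s.Ψ j))
      fun o : Option (L.ι × Fin 2) => o.elim (L.d j).t (L.s' j)) := by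
    ext1 (( i | x) | _ | x) i'
    · rfl
    · exact congrFun₂ (Sy.succ.um_mul (fun j => Nl b (s.Ψ j) x.1) fun j => (L.d j).l x.1).symm x.2 i'
    · rfl
    · rfl
  have T : L.pk.t ⬝ᵥ L.pk.κ ∅ = ur fun j => s.t j ∅ := by
    refine Eq.trans ?_ (Sy.succ.ur_ae (x := fun j => (L.d j).t ⬝ᵥ L.κ j ∅) (L.un.mono ?_))
    · simp only [Sq.Lm.pk, dotProduct, ← map_mul, ← map_sum]
      exact congrArg _ (funext fun j => by simp only [Finset.sum_apply, Pi.mul_apply]; rfl)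
    · rintro j ⟨k, -, -, -, -, q⟩
      simpa using ((q ∅).2 _ rfl).2.1
  refine ⟨s.m + 1, fun N => ?_⟩
  obtain ⟨j, ⟨⟨⟨⟨⟨⟨⟨hj, tw⟩, pe⟩, chr⟩, kp, -, un, -⟩, vl⟩, a1⟩, a2⟩⟩ :=
    ((((((((U_ge (2 * N)).and s.tw).and s.pe).and s.chr).and L.un).and hv).and
      (eventually_all.2 fun a => eventually_all.2 fun i => ej_ur (fun j => Matrix.of (Sum.elim
        ((L.d j).Rm b (s.Ψ j)) fun o : Option (L.ι × Fin 2) => o.elim (L.d j).t (L.s' j)) a i)
        (2 * N))).and (ej_ur (fun j => s.t j ∅) (2 * N))).exists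
  have hk : 2 * N ≤ j + 1 := by omega
  obtain ⟨v, -, xq⟩ := pe.xq
  have pf : (s.C j).primeFactors = (s.c j).primeFactors ∪ {s.q j} := by
    rw [Nat.primeFactors_mul tw.sq.ne_zero xq.pr.ne_zero, xq.pr.primeFactors]
  refine ⟨s.C j, one_lt_mul_of_lt_of_le tw.one xq.pr.one_le, chr.sq, ?_, fun q hq => ?_,
    fun i hi hF => ?_⟩
  · rw [pf]
    exact (Finset.card_union_le _ _).trans (Nat.succ_le_succ tw.crd)
  · rw [pf, Finset.mem_union, Finset.mem_singleton] at hq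
    have := gp_mono (n' := N) (hq.elim (tw.gp q) fun t => t ▸ pe.gp) (by omega)
    exact ⟨this.out, this.cop, this.typ, fun z => this.gq ((pow_dvd_pow _ (Nat.le_succ _)).trans z)⟩
  have t2 : 2 ^ i ∣ constantCoeff (L.pk.t ⬝ᵥ L.pk.κ ∅) :=
    two_dvd hk (by omega) (vl (fun g _ => ps_X _ _ _ g) i (by omega) hF) (T ▸ a2 hk)
  have := (h0 _ _ (2 * i) (2 * N)).1 (by
    rw [mul_comm, pow_mul]; exact (pow_dvd_pow_of_dvd t2 2).trans D) (by omega)
  rw [pow_mul, show ((L.pk.Mx (s.γ n)).map constantCoeff).map (toZModPow (2 * N)) =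
    (Matrix.of (Sum.elim ((L.d j).Rm b (s.Ψ j)) fun o : Option (L.ι × Fin 2) =>
      o.elim (L.d j).t (L.s' j))).map (ej hk) from Matrix.ext fun a i => by
        rw [A]; exact (a1 a i hk).symm] at this
  exact this.trans_eq (card hk un (ej_ps hk _ _) _)

end Vale.Agent.P014T.Kx
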