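import Vale.Agent.P014T.Kx.St
import Vale.Agent.P014T.Ki.Tor
import Vale.Agent.P014T.Pq.El
import Vale.Agent.P014T.Sh.Ur
import Vale.Agent.P014T.Bt.Ac
import Vale.Agent.P014T.Ba.Cnt
import Vale.Agent.P022K.Cheb.Main

/-! # P014T, block K: local torsion is finite, the corank is at least two -/

set_option linter.all false

open NumberField
open scoped Classical

noncomputable section

namespace Vale.Agent.P014T.Kx

open Vale.Agent.P022 (Qb GQ IsConj)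
open Vale.Agent.P022K.G2 (In)
open Vale.Agent.P022D.W (dec dec_gen inP_le_dec)
open Vale.Agent.P022E.GW (Ov)
open P004M.TE (Pt ga mt)
open Bt (T2 Z0 Km Zk)
open Ba (Tk card_map)
open Wm (Fx)

/-- **local torsion is finite** -/
theorem ft : FT := fun A B p P hD o => by
  have := (Ki.fin_tors hD o).to_subtype
  have : Finite ↥(T2 A B ⊓ Fx A B (dec P)) := Finite.of_injective
    (β := {x : Pt A B | x ∈ Ki.Fx (dec P) ga ∧ ∃ j : ℕ, 2 ^ j • x = 0})
    (fun x => ⟨x.1, x.2.2, x.2.1⟩) fun x y e => Subtype.ext (congrArg (·.1) e)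
  exact Nat.card_pos.ne'

namespace Inf

/-- a group of corank two is not commensurable with a line -/
theorem cnt {G : Type} [AddCommGroup G] (Z : AddSubgroup G) (f : Ba.Dv →+ G) [Finite f.ker] {m : ℕ}
    (m0 : m ≠ 0) (hm : ∀ z ∈ Z, m • z ∈ f.range) (fin : ∀ j, Finite ↥(Z ⊓ Tk G j))
    (low : ∀ j, 4 ^ j ≤ Nat.card ↥(Z ⊓ Tk G j)) : False := by
  obtain ⟨e, o, ho, rfl⟩ := Nat.exists_eq_two_pow_mul_odd m0
  set C := Nat.card ↥(Z ⊓ Tk G e)
  have r := Ba.card_range_tk Ba.dv_half f C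
  rw [Ba.card_tk] at r
  have : Finite ↥(f.range ⊓ Tk G C) := Nat.finite_of_card_ne_zero (by rw [r]; positivity)
  have k := card_map (nsmulAddMonoidHom (2 ^ e * o)) (Z ⊓ Tk G C)
  have a : Nat.card ↥((nsmulAddMonoidHom (2 ^ e * o) : G →+ G).ker ⊓ (Z ⊓ Tk G C)) ≤ C :=
    AddSubgroup.card_le_of_le fun z ⟨a, b, c⟩ => ⟨b, Ba.odd_inj (n := o) (by exact_mod_cast ho)
      (nsmul_mem (show z ∈ Ba.Tp G from ⟨C, c⟩) _) (by
        rw [natCast_zsmul, ← mul_smul, mul_comm]; exact a)⟩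
  have b : Nat.card ((Z ⊓ Tk G C).map (nsmulAddMonoidHom (2 ^ e * o))) ≤ 2 ^ C :=
    r ▸ AddSubgroup.card_le_of_le (by
      rintro _ ⟨z, ⟨a, b⟩, rfl⟩
      exact ⟨hm z a, nsmul_mem b _⟩)
  have := (low C).trans (k.ge.trans (Nat.mul_le_mul a b))
  rw [show 4 = 2 * 2 from rfl, mul_pow] at this
  exact (Nat.le_of_mul_le_mul_right this (by positivity)).not_gt Nat.lt_two_pow_self

variable {A B : ℤ} {S : Finset ℕ} {P : ℕ → Ideal (𝓞 Qb)} {c : GQ}

theorem bad2 (h : Pl A B S P) (l : ℕ) (hl : l.Prime) (m : l ∉ S) :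
    ¬ (l : ℤ) ∣ 2 * (4 * A ^ 3 + 27 * B ^ 2) := fun d =>
  ((Nat.prime_iff_prime_int.1 hl).dvd_or_dvd d).elim (fun a => m (((Nat.prime_dvd_prime_iff_eq hl
    Nat.prime_two).1 (by exact_mod_cast a)) ▸ h.two)) (h.bad l hl m)

/-- a good prime which splits in the field of the points of order two -/
theorem aux (h : Pl A B S P) : ∃ l Q, l ∉ S ∧ Ov l Q ∧
    ∀ g ∈ dec Q, (mt (Bt.hq h.disc) g).map PadicInt.toZMod = 1 := by
  have gd := (Pq.dm_ga (Bt.hq h.disc)).gd (Pq.ac_ga (Bt.hq h.disc) (bad2 h)) fun l m => (h.ov l m).1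
  obtain ⟨W, o, w⟩ := gd.lc
  obtain ⟨l, φ, hl, m, ⟨Q, p1, p2, f⟩, i⟩ := P022K.Cheb.exists_fr o (one_mem W) S
  refine ⟨l, Q, m, ⟨hl, p1, p2⟩, fun g hg => ?_⟩
  obtain ⟨k, s, u, hs, hu, rfl⟩ := dec_gen hl p1 p2 f hg W o
  exact (gd.mul _ trivial _ trivial).trans (by
    rw [w _ trivial (mul_mem hu (pow_mem i k)), gd.unr s trivial ⟨l, m, Q, ⟨hl, p1, p2⟩, hs⟩, mul_one])

theorem pl_ins (h : Pl A B S P) {l : ℕ} {Q : Ideal (𝓞 Qb)} (o : Ov l Q) :
    Pl A B (insert l S) (Function.update P l Q) where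
  disc := h.disc
  ov p m := by
    by_cases e : p = l
    · rw [e, Function.update_self]; exact o
    · rw [Function.update_of_ne e]; exact h.ov p ((Finset.mem_insert.1 m).resolve_left e)
  two := Finset.mem_insert_of_mem h.two
  bad p a m := h.bad p a fun b => m (Finset.mem_insert_of_mem b)

theorem z0_mono {S' : Finset ℕ} (h : S ⊆ S') : Z0 A B S c ≤ Z0 A B S' c := fun _ a =>
  ⟨a.1, a.2.1, a.2.2.1, fun g ⟨l, m, b⟩ => a.2.2.2.1 g ⟨l, fun e => m (h e), b⟩, a.2.2.2.2⟩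

/-- the Kummer condition at good primes is the unramified condition -/
theorem zu_le (h : Pl A B S P) {U : Finset ℕ} {P' : ℕ → Ideal (𝓞 Qb)} (o : ∀ l ∈ U, Ov l (P' l)) :
    ZU A B (U ∪ S) c P' U ≤ Z0 A B S c := fun x ⟨a, b⟩ =>
  ⟨a.1, a.2.1, a.2.2.1, fun g ⟨l, m, R, r, i⟩ => by
    by_cases e : l ∈ U
    · obtain ⟨y, hy⟩ := Sh.Coc.cj a.2.1 (o l e) r
        (AddSubgroup.mem_iInf.1 (AddSubgroup.mem_iInf.1 b l) e)
      obtain ⟨k, t⟩ := a.2.2.1
      rw [hy g (inP_le_dec i), Sh.ur1 (bad2 h l r.1 m) r i (hy g (inP_le_dec i) ▸ t g), sub_self]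
    · exact a.2.2.2.1 g ⟨l, fun b => (Finset.mem_union.1 b).elim e m, R, r, i⟩, a.2.2.2.2⟩

end Inf

open Inf in
/-- **the corank is at least two** -/
theorem inf (up : UP0) : INF := fun A B S P c h hc => by
  obtain ⟨l, Q, m, o, s⟩ := aux h
  have hD := Bt.hq h.disc
  have h' := pl_ins h o
  have l2 : l ≠ 2 := fun e => m (e ▸ h.two)
  have b := Pq.bs_of hD h'.two (fun l m => (h'.ov l m).1) hc ⟨l, Finset.mem_insert_self _ _, l2, Q, o, s⟩
  have a := Pq.ac_ga hD (bad2 h')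
  have fin := Pq.zj_fin (Pq.dm_ga hD) a b
  refine ⟨?_, fun F => by_contra fun n => ?_⟩
  · have := fin 1
    exact Finite.of_injective (β := Pq.Zj (fun g => (ga g : Pt A B →+ Pt A B)) (insert l S) c 1)
      (fun x => ⟨x.1, z0_mono (Finset.subset_insert _ _) x.2.1, x.2.2⟩)
      fun x y e => Subtype.ext (congrArg (·.1) e)
  have u := (up A B _ _ c {l} h' hc (by simp)).1 (by simpa using l2.symm)
  have n := AddSubgroup.relIndex_ne_zero_trans n fun e => u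
    (AddSubgroup.relIndex_eq_zero_of_le_left (zu_le h (U := {l}) (by simpa using o)) e)
  obtain ⟨g, hg⟩ := Bt.ex_gp h.disc hc
  have : Finite ((Bt.dd A B).comp (Bt.hm g)).ker := Finite.of_injective (β := Fx A B ⊤)
    (fun x => ⟨Bt.hm g x, fun u _ => Bt.ker_dd.1 x.2 u⟩)
    fun x y e => Subtype.ext (Bt.hm_inj hg.2 (congrArg (·.1) e))
  refine cnt (Z0 A B (insert l S) c) ((Bt.dd A B).comp (Bt.hm g))
    (mul_ne_zero (mul_ne_zero two_ne_zero (Nat.card_pos (α := Fx A B ⊤)).ne') n) (fun z hz => ?_)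
    fin (Pq.cor4 (Pq.dm_ga hD) a b)
  obtain ⟨⟨-, -, ⟨k, t⟩, -, e⟩, y, hy⟩ := AddSubgroup.nsmul_relIndex_mem (Zk A B S c) hz
  have f : 2 ^ k • y ∈ Fx A B ⊤ := fun u _ => by
    rw [map_nsmul, ← sub_eq_zero, ← nsmul_sub, ← hy u trivial, t]
  obtain ⟨w, hw⟩ := hg.two h.disc hc (Q := Nat.card (Fx A B ⊤) • y) (Bt.mem_Ac.2 ⟨⟨k, by
    rw [smul_comm]
    exact congrArg Subtype.val (card_nsmul_eq_zero' (x := (⟨_, f⟩ : Fx A B ⊤)))⟩, by
    rw [map_nsmul, sub_eq_zero.1 ((hy c trivial).symm.trans e)]⟩)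
  refine ⟨w, ?_⟩
  rw [AddMonoidHom.comp_apply, hw, mul_smul, mul_smul, map_nsmul, map_nsmul]
  exact congrArg (fun v => 2 • Nat.card (Fx A B ⊤) • v) (funext fun u => (hy u trivial).symm)

end Vale.Agent.P014T.Kx
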