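import Vale.Agent.P014T.Kx.St

/-! # P014T, block K: row KA (index algebra) -/

set_option linter.all false

namespace Vale.Agent.P014T.Kx.Ka

open AddSubgroup

variable {F : Type} [AddCommGroup F] {π : F →+ F}

theorem rm (f : F →+ F) {D C : AddSubgroup F} (h : D ≤ C) :
    D.relIndex C = D.relIndex (f.ker ⊓ C) * (D.map f).relIndex (C.map f) := by
  rw [← relIndex_comap, comap_map_eq, ← inf_relIndex_right (D ⊔ f.ker), sup_inf_assoc_of_le _ h,
    ← relIndex_mul_relIndex D (D ⊔ f.ker ⊓ C) C le_sup_left (sup_le h inf_le_right),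
    relIndex_sup_left]

theorem rc (D C : AddSubgroup F) : Nat.card ↥(D ⊓ C) * D.relIndex C = Nat.card C := by
  rw [← relIndex_bot_left, ← relIndex_bot_left, ← inf_relIndex_right D,
    relIndex_mul_relIndex _ _ _ bot_le inf_le_right]

theorem le_half {R H : AddSubgroup F} (h2 : ∀ y ∈ R, π y = 2 • y) (h : H ≤ R) :
    H ≤ R ⊓ H.comap π := fun y a =>
  ⟨h a, mem_comap.2 ((h2 y (h a)).symm ▸ nsmul_mem a 2)⟩

theorem half_one {R H : AddSubgroup F} (h2 : ∀ y ∈ R, π y = 2 • y)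
    (tor : ∀ y ∈ R, ∃ k : ℕ, 2 ^ k • y = 0) (e : H.relIndex (R ⊓ H.comap π) = 1) : R ≤ H := by
  have k : ∀ k : ℕ, ∀ y ∈ R, 2 ^ k • y ∈ H → y ∈ H := fun k => by
    induction k with
    | zero => exact fun y _ a => by simpa using a
    | succ k ih =>
      refine fun y a b => relIndex_eq_one.1 e ⟨a, ?_⟩
      rw [pow_succ, mul_nsmul'] at b
      exact mem_comap.2 ((h2 y a).symm ▸ ih _ (nsmul_mem a 2) b)
  intro y a
  obtain ⟨j, b⟩ := tor y a
  exact k j y a (b ▸ zero_mem H)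

theorem half_card {R H : AddSubgroup F} : Nat.card ↥(R ⊓ H.comap π) =
    Nat.card ↥(π.ker ⊓ R) * Nat.card ↥(R.map π ⊓ H) := by
  rw [← rc π.ker, relIndex_ker, ← inf_assoc, inf_eq_left.2 (fun y (a : y ∈ π.ker ⊓ R) =>
    mem_comap.2 ((AddMonoidHom.mem_ker.1 a.1).symm ▸ zero_mem H))]
  rw [show (R ⊓ H.comap π).map π = R.map π ⊓ H from AddSubgroup.ext fun y =>
    ⟨fun ⟨x, a, e⟩ => ⟨⟨x, a.1, e⟩, e ▸ a.2⟩, fun ⟨⟨x, a, e⟩, b⟩ =>
      ⟨x, ⟨a, mem_comap.2 (e ▸ b)⟩, e⟩⟩]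

/-- the kernels of the powers -/
def Hk (π : F →+ F) (R : AddSubgroup F) : ℕ → AddSubgroup F
  | 0 => ⊥
  | k + 1 => R ⊓ (Hk π R k).comap π

theorem two {R : AddSubgroup F} (h2 : ∀ y ∈ R, π y = 2 • y)
    (tor : ∀ y ∈ R, ∃ k : ℕ, 2 ^ k • y = 0) (fin : Finite ↥(π.ker ⊓ R)) (inf : Infinite R) :
    (R.map π).relIndex R ≠ 0 ∧ 2 * (R.map π).relIndex R ≤ Nat.card ↥(π.ker ⊓ R) := by
  have le : ∀ k, Hk π R k ≤ R := fun k => by
    cases k
    exacts [bot_le, inf_le_left]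
  have fi : ∀ k, Nat.card (Hk π R k) ≠ 0 := fun k => by
    induction k with
    | zero => simp [Hk]
    | succ k ih =>
      rw [Hk, half_card]
      exact mul_ne_zero Nat.card_pos.ne' (left_ne_zero_of_mul ((rc _ _).trans_ne ih))
  have mono : Monotone (Hk π R) := monotone_nat_of_le_succ fun k => le_half h2 (le k)
  have mem : ∀ k, ∀ y ∈ R, 2 ^ k • y = 0 → y ∈ Hk π R k := fun k => by
    induction k with
    | zero => exact fun y _ a => by simpa [Hk] using a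
    | succ k ih =>
      refine fun y a b => ⟨a, ?_⟩
      rw [pow_succ, mul_nsmul'] at b
      exact mem_comap.2 ((h2 y a).symm ▸ ih _ (nsmul_mem a 2) b)
  have bd : ∀ k, (R.map π).relIndex (Hk π R k) ≠ 0 ∧
      2 * (R.map π).relIndex (Hk π R k) ≤ Nat.card ↥(π.ker ⊓ R) := fun k => by
    have e1 := rc (R.map π) (Hk π R k)
    have e2 := rc (Hk π R k) (Hk π R (k + 1))
    have f1 := e1.trans_ne (fi k)
    have f2 := right_ne_zero_of_mul (e2.trans_ne (fi _))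
    have f3 : (Hk π R k).relIndex (Hk π R (k + 1)) ≠ 1 := fun e => by
      have := (Nat.card_ne_zero.1 (fi k)).2
      exact not_finite_iff_infinite.2 inf (Finite.of_injective _ (inclusion_injective
        (half_one h2 tor e)))
    rw [inf_eq_left.2 (mono k.le_succ), Hk, half_card, ← e1] at e2
    refine ⟨right_ne_zero_of_mul f1, Nat.le_of_mul_le_mul_right ?_
      (Nat.pos_of_ne_zero (left_ne_zero_of_mul f1))⟩
    rw [← e2, Hk] at *
    have : 2 ≤ (Hk π R k).relIndex (R ⊓ (Hk π R k).comap π) := by omega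
    nlinarith [Nat.mul_le_mul_left (Nat.card ↥(R.map π ⊓ Hk π R k) *
      (R.map π).relIndex (Hk π R k)) this]
  obtain ⟨_, ⟨k, rfl⟩, mx⟩ := Set.exists_max_image (Set.range fun k => (R.map π).relIndex (Hk π R k))
    id ((Set.finite_Iic _).subset (by
      rintro _ ⟨k, rfl⟩
      exact (Nat.le_mul_of_pos_left _ two_pos).trans (bd k).2)) ⟨_, 0, rfl⟩
  have : Hk π R k ⊔ R.map π = R := by
    refine le_antisymm (sup_le (le k) ?_) fun y a => ?_
    · rintro _ ⟨x, a, rfl⟩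
      exact (h2 x a).symm ▸ nsmul_mem a 2
    obtain ⟨j, b⟩ := tor y a
    have m := mx _ ⟨max k j, rfl⟩
    have e := relIndex_mul_relIndex (R.map π) (Hk π R k ⊔ R.map π) (Hk π R (max k j) ⊔ R.map π)
      le_sup_right (sup_le_sup_right (mono (le_max_left _ _)) _)
    rw [relIndex_sup_right, relIndex_sup_right] at e
    have f := (bd (max k j)).1
    simp only [id] at m
    rw [← e] at m f
    refine relIndex_eq_one.1 (le_antisymm ?_ (Nat.pos_of_ne_zero (right_ne_zero_of_mul f)))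
      (mem_sup_left (mono (le_max_right _ _) (mem j y a b)))
    exact Nat.le_of_mul_le_mul_left (by simpa using m) (Nat.pos_of_ne_zero (bd k).1)
  have b := bd k
  rwa [← relIndex_sup_right, this] at b

theorem main (π : F →+ F) (Z Z₀ Z' B₁ B₀ : AddSubgroup F) (h0 : Z₀ ≤ Z) (h' : Z' ≤ Z)
    (hπ : ∀ x ∈ Z, π x ∈ Z₀) (h2 : ∀ y ∈ Z₀, π y = 2 • y) (b1 : B₁ ≤ Z' ⊓ π.ker)
    (b0 : B₀ ≤ Z₀ ⊓ Z') (tor : ∀ y ∈ Z₀, ∃ k : ℕ, 2 ^ k • y = 0)
    (fin : Finite {y // y ∈ Z₀ ∧ 2 • y = 0}) (inf : Infinite B₀) (hY : (Z₀ ⊓ Z').relIndex Z₀ = 0)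
    (n1 : B₁.relIndex (Z ⊓ π.ker) ≠ 0) (n0 : B₀.relIndex (Z₀ ⊓ Z') ≠ 0) :
    (B₁ ⊔ B₀).relIndex Z' ≠ 0 ∧ 4 * (B₁ ⊔ B₀).relIndex Z' ≤
      B₁.relIndex (Z ⊓ π.ker) * B₀.relIndex (Z₀ ⊓ Z') * Nat.card ↥(B₁ ⊓ B₀) := by
  have c0 : B₀ ≤ Z₀ := b0.trans inf_le_left
  have c1 : B₁ ≤ π.ker := b1.trans inf_le_right
  obtain ⟨r0, r1⟩ := two (π := π) (fun y a => h2 y (c0 a)) (fun y a => tor y (c0 a))
    (Finite.of_injective (fun y : ↥(π.ker ⊓ B₀) => (⟨y, c0 y.2.2, h2 _ (c0 y.2.2) ▸ y.2.1⟩ :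
      {y // y ∈ Z₀ ∧ 2 • y = 0})) fun x y e => Subtype.ext (Subtype.mk.inj e)) inf
  set Y := Z₀ ⊓ Z'
  set D := B₁ ⊔ B₀
  set Zb := Z ⊓ Y.comap π
  have dz : D ≤ Z' := sup_le (b1.trans inf_le_left) (b0.trans inf_le_right)
  have m0 : B₀.map π ≤ B₀ := by
    rintro _ ⟨x, a, rfl⟩
    exact (h2 x (c0 a)).symm ▸ nsmul_mem a 2
  have mD : D.map π = B₀.map π := by
    rw [AddSubgroup.map_sup, (AddSubgroup.map_eq_bot_iff _).2 c1, bot_sup_eq]
  have db : D ≤ Zb := le_inf (dz.trans h') (map_le_iff_le_comap.1 (mD ▸ m0.trans b0))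
  have e1 := rm π db
  have k1 : π.ker ⊓ Zb = Z ⊓ π.ker := by
    rw [inf_left_comm, inf_eq_left.2 (show π.ker ≤ Y.comap π from fun y a =>
      mem_comap.2 ((AddMonoidHom.mem_ker.1 a).symm ▸ zero_mem Y))]
  have e2 := relIndex_mul_relIndex _ _ _ m0 b0
  have l2 : Zb.map π ≤ Y := map_le_iff_le_comap.2 inf_le_right
  have f2 := (e2 ▸ mul_ne_zero r0 n0 :)
  have e3 := relIndex_le_of_le_right l2 f2
  have f3 := mt (relIndex_eq_zero_of_le_right l2) f2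
  have e4 := relIndex_mul_relIndex B₁ (D ⊓ (Z ⊓ π.ker)) (Z ⊓ π.ker)
    (le_inf le_sup_left (le_inf (b1.trans (inf_le_left.trans h')) c1)) inf_le_right
  rw [inf_relIndex_right, sup_inf_assoc_of_le _ (le_inf (b1.trans (inf_le_left.trans h')) c1),
    relIndex_sup_left, ← inf_assoc, inf_eq_left.2 (c0.trans h0), inf_comm B₀] at e4
  have e5 := rc B₁ (π.ker ⊓ B₀)
  rw [← inf_assoc, inf_eq_left.2 c1] at e5
  rw [k1, mD] at e1
  have f1 : D.relIndex Zb ≠ 0 := e1 ▸ mul_ne_zero (right_ne_zero_of_mul (e4.trans_ne n1)) f3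
  have g1 := relIndex_mul_relIndex D (Zb ⊓ Z') Zb (le_inf db dz) inf_le_left
  have g2 := relIndex_mul_relIndex D (Zb ⊓ Z') Z' (le_inf db dz) inf_le_right
  set H := Z'.map π ⊔ Y
  have hH : H ≤ Z₀ := sup_le (map_le_iff_le_comap.2 fun x a => hπ x (h' a)) inf_le_left
  have lG : Z₀ ⊓ H.comap π ≤ Zb ⊔ Z' := fun y a => by
    obtain ⟨_, ⟨z, b, rfl⟩, w, c, e⟩ := mem_sup.1 (mem_comap.1 a.2)
    refine mem_sup.2 ⟨y - z, ⟨Z.sub_mem (h0 a.1) (h' b), mem_comap.2 ?_⟩, z, b, sub_add_cancel _ _⟩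
    rwa [map_sub, ← e, add_sub_cancel_left]
  have g3 := relIndex_mul_relIndex Y H _ le_sup_right (le_half h2 hH)
  have g4 : Y.relIndex (Z₀ ⊓ H.comap π) = Z'.relIndex (Z₀ ⊓ H.comap π) := by
    rw [← inf_relIndex_right Y, ← inf_relIndex_right Z', ← inf_assoc, ← inf_assoc, inf_comm Z' Z₀,
      inf_eq_left.2 (show Y ≤ Z₀ from inf_le_left)]
  have g5 : Y.relIndex H = (Zb ⊓ Z').relIndex Z' := by
    rw [relIndex_sup_right, ← relIndex_comap, inf_relIndex_right, ← inf_relIndex_right (_ ⊓ _),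
      inf_right_comm, inf_eq_right.2 h', inf_comm, inf_relIndex_right]
  rw [inf_relIndex_left, ← relIndex_sup_right Zb Z'] at g1
  have f4 := right_ne_zero_of_mul (g1.trans_ne f1)
  have g6 := relIndex_le_of_le_right lG f4
  have f5 := (g3.trans g4).trans_ne (mt (relIndex_eq_zero_of_le_right lG) f4)
  have f6 : H.relIndex (Z₀ ⊓ H.comap π) ≠ 1 := fun e =>
    left_ne_zero_of_mul f5 (relIndex_eq_zero_of_le_right (half_one h2 tor e) hY)
  have f7 := right_ne_zero_of_mul f5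
  have f8 : 2 ≤ H.relIndex (Z₀ ⊓ H.comap π) := by omega
  refine ⟨g2 ▸ mul_ne_zero (left_ne_zero_of_mul (g1.trans_ne f1))
    (g5 ▸ left_ne_zero_of_mul f5), ?_⟩
  rw [← g4, ← g3, g5] at g6
  rw [← e2] at e3
  rw [← e5] at r1
  rw [← g2, ← e4]
  calc _ = 2 * (D.relIndex (Zb ⊓ Z') * ((Zb ⊓ Z').relIndex Z' * 2)) := by ring
    _ ≤ 2 * D.relIndex Zb := by
      rw [← g1]
      exact Nat.mul_le_mul_left _ (Nat.mul_le_mul_left _ ((Nat.mul_le_mul_left _ f8).trans g6))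
    _ ≤ D.relIndex (Z ⊓ π.ker) * B₀.relIndex Y * (2 * (B₀.map π).relIndex B₀) := by
      rw [e1]
      nlinarith [Nat.mul_le_mul_left (2 * D.relIndex (Z ⊓ π.ker)) e3]
    _ ≤ _ := (Nat.mul_le_mul_left _ r1).trans_eq (by ring)

end Vale.Agent.P014T.Kx.Ka

theorem Vale.Agent.P014T.Kx.ka : Vale.Agent.P014T.Kx.KA := fun _ _ => Ka.main
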