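import Vale.Agent.P014T.Kx.St

/-! # P014T, block K: the bound for the strict group over `K` from the rows -/

set_option linter.all false

open NumberField
open scoped Classical

noncomputable section

namespace Vale.Agent.P014T.Kx

open Vale.Agent.P022
open Vale.Agent.P022D.W (dec)
open P004M.TE (Pt ga)
open Bt (T2 Z0 Zl Km Zs Zk)
open Wm (Fx)
open AddSubgroup

namespace Kb

/-- indices along a map which is injective on the larger group -/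
theorem rel_map {G G' : Type} [AddCommGroup G] [AddCommGroup G'] (f : G →+ G')
    {H K : AddSubgroup G} (le : H ≤ K) (inj : ∀ y ∈ K, f y = 0 → y = 0) :
    (H.map f).relIndex (K.map f) = H.relIndex K := by
  rw [← relIndex_comap, ← inf_relIndex_right]
  congr 1
  refine le_antisymm (fun x hx => ?_) fun x hx => ⟨⟨x, hx, rfl⟩, le hx⟩
  obtain ⟨⟨y, hy, e⟩, k⟩ := hx
  have : x - y = 0 := inj _ (sub_mem k (le hy)) (by rw [map_sub, e, sub_self])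
  exact sub_eq_zero.1 this ▸ hy

theorem card_le {G : Type} [AddCommGroup G] {W B Z : AddSubgroup G} (le : W ≤ Z)
    (h : B.relIndex Z ≠ 0) (f : Finite ↥(W ⊓ B)) :
    Finite W ∧ Nat.card W ≤ Nat.card ↥(W ⊓ B) * B.relIndex Z := by
  have e : Nat.card ↥(W ⊓ B) * B.relIndex W = Nat.card W := by
    rw [← relIndex_bot_left, ← relIndex_bot_left, ← inf_relIndex_left W B,
      relIndex_mul_relIndex _ _ _ bot_le inf_le_left]
  refine ⟨Nat.finite_of_card_ne_zero ?_, ?_⟩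
  · rw [← e]
    exact mul_ne_zero Nat.card_pos.ne' fun k => h (relIndex_eq_zero_of_le_right le k)
  · rw [← e]
    exact Nat.mul_le_mul_left _ (relIndex_le_of_le_right le h)

variable {A B : ℤ} {S U V : Finset ℕ} {c : GQ} {P : ℕ → Ideal (𝓞 Qb)} {x : GQ → Pt A B}

theorem mem_ZU : x ∈ ZU A B S c P U ↔ x ∈ Z0 A B S c ∧ ∀ p ∈ U, x ∈ Km A B (dec (P p)) := by
  simp [ZU, AddSubgroup.mem_iInf]

theorem mem_ZP {Γ : Subgroup GQ} :
    x ∈ ZP A B Γ S P U ↔ x ∈ ZK A B Γ S ∧ ∀ p ∈ U, x ∈ Km A B (dec (P p)) := by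
  simp [ZP, AddSubgroup.mem_iInf]

theorem km_top (D : Subgroup GQ) (h : x ∈ Km A B ⊤) : x ∈ Km A B D :=
  h.imp fun _ a g _ => a g trivial

theorem zs_le (h : U ⊆ S) : Zs A B S c P ≤ ZU A B S c P U := fun _ a =>
  mem_ZU.2 ⟨(Bt.mem_Zs.1 a).1, fun p hp => (Bt.mem_Zs.1 a).2 p (h hp)⟩

theorem zu_le (h : U ⊆ V) : ZU A B S c P V ≤ ZU A B S c P U := fun _ a =>
  mem_ZU.2 ⟨(mem_ZU.1 a).1, fun p hp => (mem_ZU.1 a).2 p (h hp)⟩

theorem prod_eq (f : ℕ → ℕ) {L σ : Finset ℕ} (dj : Disjoint S L) (two : 2 ∈ S)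
    (sub : σ ⊆ S.erase 2) : ∏ p ∈ (S ∪ L).erase 2, f p =
    (∏ p ∈ L, f p) * (∏ p ∈ (S ∪ L) \ (L ∪ insert 2 σ), f p) * ∏ p ∈ σ, f p := by
  have d : ∀ p, p ∈ S → p ∉ L := fun p a => Finset.disjoint_left.1 dj a
  have u : ∀ p, p ∈ σ → p ≠ 2 ∧ p ∈ S := fun p hp => Finset.mem_erase.1 (sub hp)
  rw [← Finset.prod_union, ← Finset.prod_union]
  · congr 1
    ext p
    have := d p
    have := u p
    have : p = 2 → p ∉ L := fun e => d p (e ▸ two)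
    simp only [Finset.mem_erase, Finset.mem_union, Finset.mem_sdiff, Finset.mem_insert]
    tauto
  · refine Finset.disjoint_left.2 fun p a b => ?_
    have := d p (u p b).2
    simp only [Finset.mem_union, Finset.mem_sdiff, Finset.mem_insert] at a
    tauto
  · refine Finset.disjoint_left.2 fun p a b => ?_
    simp only [Finset.mem_union, Finset.mem_sdiff, Finset.mem_insert] at b
    tauto

theorem ari {w u i z a j s s' t x p l q r e e' : ℕ} (h1 : w ≤ u * z)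
    (h2 : 4 * z ≤ s * e * e' * (s' * x) * i) (h3 : e ≤ j * p) (h4 : e' ≤ l) (h5 : x * t ≤ q)
    (h6 : i * u * t ≤ a * j) :
    4 * (w * r) * t ^ 2 ≤ a * j ^ 2 * s * s' * p * (l * q * r) :=
  calc 4 * (w * r) * t ^ 2 ≤ 4 * (u * z * r) * t ^ 2 := by gcongr
    _ = 4 * z * (u * r * t ^ 2) := by ring
    _ ≤ s * e * e' * (s' * x) * i * (u * r * t ^ 2) := by gcongr
    _ = i * u * t * e * e' * (x * t) * (s * s' * r) := by ring
    _ ≤ a * j * (j * p) * l * q * (s * s' * r) := by gcongr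
    _ = _ := by ring

end Kb

open Kb

theorem kb (up1 : UP1) (up0 : UP0) (inf : INF) (ka : KA) (ra : RA) (rb : RB) (rc : RC) (pt : PT) :
    KB := fun s hy hf hj h1 h0 => by
  obtain ⟨b1, b2, b3, b4, b5, b6⟩ := rb s
  obtain ⟨c1, c2⟩ := rc s
  obtain ⟨p1, p2, p3⟩ := pt s hf hj
  obtain ⟨u1, u2⟩ := up1 _ _ _ _ _ s.p1 s.cc hy hj
  obtain ⟨i1, i2⟩ := inf _ _ _ _ _ s.p0 s.cc
  have d : ∀ p, p ∈ s.S → p ∉ s.L := fun p a => Finset.disjoint_left.1 s.dj a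
  have sS : insert 2 s.σ ⊆ s.S :=
    Finset.insert_subset s.p1.two (s.sub.trans (Finset.erase_subset _ _))
  have sU : s.L ∪ insert 2 s.σ ⊆ s.S ∪ s.L :=
    Finset.union_subset Finset.subset_union_right (sS.trans Finset.subset_union_left)
  obtain ⟨v1, v2⟩ := (up0 _ _ _ _ _ _ s.p0 s.cc sU).2 (by simp) fun e => s.ne
    (Finset.Subset.antisymm sS fun p hp => by
      have : p ∈ s.L ∪ insert 2 s.σ := e ▸ Finset.mem_union_left _ hp
      exact (Finset.mem_union.1 this).resolve_left (d p hp))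
  have v0 := (up0 _ _ _ _ _ s.L s.p0 s.cc Finset.subset_union_right).1 (d 2 s.p1.two)
  have j0 : ∀ U, ∀ y ∈ s.U U, s.r0 y = 0 → y = 0 := fun U y h => (b2 y (mem_ZU.1 h).1).2
  have eY : (s.U s.L).map s.r0 ⊓ ZP s.A s.B s.Γ s.S s.P (insert 2 s.σ) =
      (s.U (s.L ∪ insert 2 s.σ)).map s.r0 := by
    refine le_antisymm ?_ ?_
    · rintro _ ⟨⟨y, h, rfl⟩, k⟩
      refine ⟨y, mem_ZU.2 ⟨(mem_ZU.1 h).1, fun p hp => ?_⟩, rfl⟩
      rcases Finset.mem_union.1 hp with a | a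
      · exact (mem_ZU.1 h).2 p a
      · exact (b3 y _ (s.le p a)).1 ((mem_ZP.1 k).2 p a)
    · rintro _ ⟨y, h, rfl⟩
      have k : s.r0 y ∈ (s.U s.L).map s.r0 := ⟨y, zu_le Finset.subset_union_left h, rfl⟩
      exact ⟨k, mem_ZP.2 ⟨b1 k, fun p a => (b3 y _ (s.le p a)).2
        ((mem_ZU.1 h).2 p (Finset.mem_union_right _ a))⟩⟩
  have l0 := (Bt.Zk_le (s.S ∪ s.L) s.c s.P).trans (zs_le (A := s.A') (B := s.B') sU)
  have e0 : s.B0.relIndex ((s.U s.L).map s.r0 ⊓ ZP s.A s.B s.Γ s.S s.P (insert 2 s.σ)) =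
      sh s.A' s.B' (s.S ∪ s.L) s.c s.P *
        (Zs s.A' s.B' (s.S ∪ s.L) s.c s.P).relIndex (s.U (s.L ∪ insert 2 s.σ)) := by
    rw [eY, rel_map _ l0 (j0 _), sh, relIndex_mul_relIndex _ _ _ (Bt.Zk_le _ _ _) (zs_le sU)]
  have l1 : (Z0 s.A s.B s.S s.c).map s.r1 ≤ s.Z ⊓ s.π.ker := by
    rintro _ ⟨y, h, rfl⟩
    exact (b4 y h).1
  have e1 : s.B1.relIndex (s.Z ⊓ s.π.ker) = sh s.A s.B s.S s.c s.P *
      (Zs s.A s.B s.S s.c s.P).relIndex (Z0 s.A s.B s.S s.c) *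
      ((Z0 s.A s.B s.S s.c).map s.r1).relIndex (s.Z ⊓ s.π.ker) := by
    rw [sh, relIndex_mul_relIndex _ _ _ (Bt.Zk_le _ _ _) inf_le_left,
      ← rel_map s.r1 (H := Zk s.A s.B s.S s.c) inf_le_left fun y h => (b4 y h).2]
    exact (relIndex_mul_relIndex _ _ _ (map_mono inf_le_left) l1).symm
  obtain ⟨k1, k2⟩ := ka _ s.π s.Z ((s.U s.L).map s.r0) (ZP s.A s.B s.Γ s.S s.P (insert 2 s.σ))
    s.B1 s.B0 b1 inf_le_left (ra s) (by
      rintro _ ⟨y, h, rfl⟩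
      exact (b2 y (mem_ZU.1 h).1).1) (by
      rintro _ ⟨y, h, rfl⟩
      exact ⟨mem_ZP.2 ⟨(b4 y h.1).1.1, fun p a => (b5 y _ (s.le p a)).2 (km_top _ h.2)⟩,
        (b4 y h.1).1.2⟩) (eY ▸ map_mono l0) (by
      rintro _ ⟨y, h, rfl⟩
      obtain ⟨k, a⟩ := (mem_ZU.1 h).1.2.2.1
      exact ⟨k, by rw [← map_nsmul, show 2 ^ k • y = 0 from funext a, map_zero]⟩) (by
      refine Set.Finite.subset (s := s.r0 '' {x | x ∈ Z0 s.A' s.B' (s.S ∪ s.L) s.c ∧ 2 • x = 0})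
        (Set.Finite.image _ i1) ?_
      rintro _ ⟨⟨y, h, rfl⟩, a⟩
      exact ⟨y, ⟨(mem_ZU.1 h).1, j0 _ _ (nsmul_mem h 2) (by rw [map_nsmul, a])⟩, rfl⟩) p1 (by
      rw [eY, rel_map _ (zu_le Finset.subset_union_left) (j0 _)]
      by_contra a
      refine relIndex_ne_zero_trans (relIndex_ne_zero_trans (relIndex_ne_zero_trans h0 v1) a) v0
        (i2 hf)) (e1 ▸ mul_ne_zero (mul_ne_zero h1 u1) c1) (e0 ▸ mul_ne_zero h0 v1)
  have lW : s.W ≤ ZP s.A s.B s.Γ s.S s.P (insert 2 s.σ) := fun x h =>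
    mem_ZP.2 ⟨(mem_ZP.1 h.1).1, fun p a => by
      rcases Finset.mem_insert.1 a with rfl | a
      · exact ⟨0, fun g k => by rw [h.2 g k]; simp⟩
      · exact (mem_ZP.1 h.1).2 p a⟩
  obtain ⟨w1, w2⟩ := card_le lW k1 p2
  refine ⟨w1, ?_⟩
  rw [e0, e1] at k2
  rw [prod_eq _ s.dj s.p1.two s.sub, Finset.prod_congr rfl fun p a =>
    b6 _ (s.le p (Finset.mem_insert_of_mem a))]
  exact ari w2 k2 u2 c2 v2 p3

end Vale.Agent.P014T.Kx
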