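import Vale.Agent.P014T.Kx.St
import Vale.Agent.P014T.Sh.Ur

/-! # P014T, block K, row RA: the minus part of a cocycle comes from the twist -/

set_option linter.all false

open NumberField Filter Topology
open scoped Classical Pointwise

noncomputable section

namespace Vale.Agent.P014T.Kx

open Vale.Agent.P022 Vale.Agent.P004F
open Vale.Agent.P022K.G2 (In)
open Vale.Agent.P027M.S (Inert)
open Vale.Agent.P022D.W (dec conj_inP)
open Vale.Agent.P022E.GW (Ov)
open P004M.TE (Pt ga ga_mul ga_one)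
open P004S (nu nu_mul nu_conj nu_lc nu_one z2 inert_mul inert_dec)
open Sh (Coc ur1)

namespace Ra

variable {A B : ℤ} {g h : GQ}

theorem lc_of {y : GQ → Pt A B} (hy : Coc y) (h : ∀ᶠ w in 𝓝 1, y w = 0) : IsLocallyConstant y :=
  (IsLocallyConstant.iff_eventually_eq y).2 fun g => by
    have t : Tendsto (fun w => g⁻¹ * w) (𝓝 g) (𝓝 1) :=
      (continuous_const.mul continuous_id).tendsto' g 1 (inv_mul_cancel g)
    exact (t.eventually h).mono fun w a => by
      rw [← mul_inv_cancel_left g w, hy, a, map_zero, add_zero]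

theorem in_cj {T : Set ℕ} {i : GQ} (h : i ∈ In T) (g : GQ) : g⁻¹ * i * g ∈ In T := by
  obtain ⟨l, a, P, o, k⟩ := h
  refine ⟨l, a, g⁻¹ • P, ⟨o.1, ?_, ?_⟩, P022E.GW.Tg.inert_conj (by rwa [smul_inv_smul])⟩
  · have := o.2.1
    infer_instance
  · rw [Ideal.mem_pointwise_smul_iff_inv_smul_mem, inv_inv]
    rw [show g • (l : 𝓞 Qb) = l from map_natCast (MulSemiringAction.toRingHom GQ _ g) l]
    exact o.2.2

variable (s : Su)

theorem cc : s.c * s.c = 1 := P004S.conj_sq s.cc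

theorem ci : s.c⁻¹ = s.c := inv_eq_of_mul_eq_one_left (cc s)

theorem mc (g : GQ) : g * s.c * s.c = g := by rw [mul_assoc, cc, mul_one]

theorem gcc (y : Pt A B) : ga s.c (ga s.c y) = y := by rw [← ga_mul, cc, ga_one]

variable {s}

theorem nu1 (a : g ∉ s.Γ) : nu s.d g = 1 := (z2 _).resolve_left (mt (s.mem g).2 a)

theorem out2 (a : g ∉ s.Γ) (b : h ∉ s.Γ) : g * h ∈ s.Γ :=
  (s.mem _).2 (by rw [nu_mul, nu1 a, nu1 b]; rfl)

theorem cjm (a : g ∈ s.Γ) (h : GQ) : h * g * h⁻¹ ∈ s.Γ :=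
  (s.mem _).2 ((nu_conj _ _ _).trans ((s.mem g).1 a))

theorem cm (a : g ∈ s.Γ) : s.c * g * s.c ∈ s.Γ := by simpa [ci] using cjm a s.c

theorem t_in (a : g ∈ s.Γ) (y) : ga g (s.t y) = s.t (ga g y) := by
  rw [s.tw, sd, if_pos ((s.mem g).1 a), one_smul]

theorem t_out (a : g ∉ s.Γ) (y) : ga g (s.t y) = -s.t (ga g y) := by
  rw [s.tw, sd, if_neg (mt (s.mem g).2 a), neg_one_smul, map_neg]

theorem ev_mem (s : Su) : ∀ᶠ w in 𝓝 1, w ∈ s.Γ :=
  ((nu_lc s.d).eventually_eq 1).mono fun w a => (s.mem w).2 (a.trans (nu_one _))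

/-- extension by zero at `c` -/
def ext (s : Su) (z : GQ → Pt A B) (g : GQ) : Pt A B := if g ∈ s.Γ then z g else z (g * s.c)

theorem ext_coc {z : GQ → Pt A B} (h1 : ∀ g ∈ s.Γ, ∀ h ∈ s.Γ, z (g * h) = z g + ga g (z h))
    (h2 : ∀ g ∈ s.Γ, z (s.c * g * s.c) = ga s.c (z g)) : Coc (ext s z) := fun g h => by
  have k : ∀ g ∉ s.Γ, ∀ h ∈ s.Γ, z (g * h * s.c) = z (g * s.c) + ga g (z h) := fun g a h b => by
    rw [show g * h * s.c = g * s.c * (s.c * h * s.c) by simp only [← mul_assoc, mc],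
      h1 _ (out2 a s.out) _ (cm b), h2 h b, ga_mul, gcc]
  by_cases a : g ∈ s.Γ <;> by_cases b : h ∈ s.Γ
  · simp only [ext, a, b, mul_mem a b, if_true, h1 g a h b]
  · simp only [ext, a, b, (s.Γ.mul_mem_cancel_left a).not.2 b, if_true, if_false, mul_assoc,
      h1 g a _ (out2 b s.out)]
  · simp only [ext, a, b, (s.Γ.mul_mem_cancel_right b).not.2 a, if_true, if_false, k g a h b]
  · simp only [ext, a, b, out2 a b, if_true, if_false, ← k g a _ (out2 b s.out), mul_assoc, cc,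
      mul_one]

end Ra

open Ra

/-- **row RA** -/
theorem ra : RA := fun s x ⟨⟨lc, co, k, tr⟩, z0⟩ => by
  have z0 : ∀ g, g ∉ s.Γ ∨ g ∈ In s.S → x g = 0 := z0
  have tr : ∀ g, 2 ^ k • x g = 0 := fun g =>
    (em _).elim (tr g) fun a => by rw [z0 g (.inl a), nsmul_zero]
  have tg : ∀ h g, 2 ^ k • ga h (x g) = 0 := fun h g => by rw [← map_nsmul, tr, map_zero]
  have x1 : x 1 = 0 := left_eq_add.1 ((congrArg x (mul_one 1).symm).trans
    ((co 1 (one_mem _) 1 (one_mem _)).trans (congrArg _ (ga_one _))))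
  let z (g : GQ) := s.t (x g - ga s.c (x (s.c * g * s.c)))
  have hy : Coc (ext s z) := ext_coc (fun g a h b => by
    simp only [z]
    rw [show s.c * (g * h) * s.c = s.c * g * s.c * (s.c * h * s.c) by
      simp only [← mul_assoc, mc], co g a h b, co _ (cm a) _ (cm b),
      t_in a, ← map_add, map_add (ga s.c), map_sub (ga g), ga_mul, ga_mul, gcc]
    congr 1
    abel) fun g a => by
    simp only [z]
    rw [t_out s.out, map_sub (ga s.c), gcc, ← map_neg, neg_sub]
    simp only [← mul_assoc, cc, one_mul, mc]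
  have e0 : ∀ᶠ w in 𝓝 1, x w = 0 := by
    have := lc.eventually_eq 1
    rw [nhds_induced, eventually_comap] at this
    exact this.mono fun w a => (em _).elim (fun m => (a ⟨w, m⟩ rfl).trans x1) fun m => z0 w (.inl m)
  have e1 : Tendsto (fun w => s.c * w * s.c) (𝓝 1) (𝓝 1) :=
    ((continuous_const.mul continuous_id).mul continuous_const).tendsto' 1 1 (by simp [cc])
  refine ⟨ext s z, ⟨⟨lc_of hy ?_, hy, ⟨k, fun g => ?_⟩, fun g a => ?_, ?_⟩, ?_⟩, funext fun g => ?_⟩
  · filter_upwards [e0, e1.eventually e0, ev_mem s] with w a b m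
    simp [ext, z, a, b, m]
  · simp only [ext, z]
    split_ifs <;> rw [← map_nsmul, nsmul_sub, tr, tg, sub_self, map_zero]
  · have i : g ∈ In s.S := a.imp fun l b =>
      ⟨fun m => b.1 (Finset.mem_coe.2 (Finset.mem_union_left _ m)), b.2⟩
    have j := in_cj i s.c
    rw [ci] at j
    simp [ext, z, s.un g a, z0 _ (.inr i), z0 _ (.inr j)]
  · simp [ext, z, s.out, cc, x1]
  · refine AddSubgroup.mem_iInf.2 fun l => AddSubgroup.mem_iInf.2 fun hl => ?_
    obtain ⟨τ, i, n⟩ := s.ram l hl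
    have o := s.p0.ov l (Finset.mem_union_right _ hl)
    have lS : l ∉ s.S := fun m => Finset.disjoint_left.1 s.dj m hl
    have hg : ¬ (l : ℤ) ∣ 2 * (4 * s.A ^ 3 + 27 * s.B ^ 2) := fun d =>
      ((Nat.prime_iff_prime_int.1 o.1).dvd_or_dvd d).elim (fun d => lS
        ((Nat.prime_dvd_prime_iff_eq o.1 Nat.prime_two).1 (by exact_mod_cast d) ▸ s.p1.two))
        (s.p1.bad l o.1 lS)
    have tv : ∀ j, Inert (s.P l) j → ∀ m : Pt s.A s.B, 2 ^ k • m = 0 → ga j m = m := fun j a m b =>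
      ur1 hg o a (k := k) (by rw [nsmul_sub, ← map_nsmul, b, map_zero, sub_zero])
    have zi : ∀ j, Inert (s.P l) j → x j = 0 := fun j a => z0 j (.inr ⟨l, lS, _, o, a⟩)
    have m := out2 n s.out
    have k1 : ∀ g ∈ s.Γ, x (τ * g * s.c) = x (τ * s.c) + ga s.c (x (s.c * g * s.c)) := fun g a => by
      rw [show τ * g * s.c = τ * s.c * (s.c * g * s.c) by
        simp only [← mul_assoc, mc], co _ m _ (cm a), ga_mul, tv τ i _ (tg _ _)]
    have k2 : ∀ g ∈ s.Γ, g ∈ dec (s.P l) → g ∈ hy.eqz (s.t (-x (τ * s.c))) := fun g a b => by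
      have j : Inert (s.P l) (τ * (g * τ⁻¹ * g⁻¹)) :=
        inert_mul i (conj_inP b (inv_mem (show τ ∈ H443.inP (s.P l) from i)))
      have e := k1 g a
      rw [show τ * g * s.c = τ * (g * τ⁻¹ * g⁻¹) * (g * (τ * s.c)) by group,
        co _ (by simpa [mul_assoc] using mul_mem (cjm a τ) (inv_mem a)) _ (mul_mem a m), zi _ j,
        zero_add, co g a _ m, tv _ j _ (by rw [nsmul_add, tr, tg, add_zero])] at e
      show ext s z g = _
      simp only [ext, z, a, if_true]
      rw [t_in a, ← map_sub, map_neg, eq_sub_of_add_eq' e.symm]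
      congr 1
      abel
    have k3 : τ ∈ hy.eqz (s.t (-x (τ * s.c))) := by
      have e := k1 _ m
      rw [show τ * (τ * s.c) * s.c = τ * τ by simp only [mul_assoc, cc, mul_one],
        zi _ (inert_mul i i)] at e
      show ext s z τ = _
      simp only [ext, z, n, if_false]
      rw [t_out n, ← map_neg, ← map_sub, map_neg, tv τ i _ (tr _), eq_neg_of_add_eq_zero_right e.symm]
      congr 1
      abel
    refine ⟨_, fun g b => (em _).elim (fun a => k2 g a b) fun a => ?_⟩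
    rw [← inv_mul_cancel_right g τ]
    exact mul_mem (k2 _ (out2 a (s.Γ.inv_mem_iff.not.2 n)) (mul_mem b (inv_mem (inert_dec i)))) k3
  · show (if _ then _ else _) = if _ then _ else _
    split_ifs with a
    · simp [ext, z, a]
    · rfl

end Vale.Agent.P014T.Kx
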