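import Vale.Agent.P014T.Kx.St
import Vale.Agent.P014T.Sh.Ur

/-! # P014T, block K: restriction of cocycles to the imaginary quadratic field -/

set_option linter.all false

open NumberField
open scoped Classical

noncomputable section

namespace Vale.Agent.P014T.Kx

open Vale.Agent.P022 Vale.Agent.P004F
open Vale.Agent.P022K.G2 (In)
open Vale.Agent.P027M.S (Inert)
open Vale.Agent.P022D.W (dec)
open Vale.Agent.P022E.GW (Ov)
open P004M.TE (Pt ga ga_mul ga_one)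
open P004S (nu nu_mul nu_inv)
open Bt (T2 Z0 Zl Km)
open Wm (Fx)

section

variable {A B A' B' : ℤ} {Γ : Subgroup GQ} {t : Pt A B ≃+ Pt A' B'}

theorem rs_in {g : GQ} (h : g ∈ Γ) (x : GQ → Pt A' B') : rs Γ t x g = t.symm (x g) := if_pos h

theorem rs_out {g : GQ} (h : g ∉ Γ) (x : GQ → Pt A' B') : rs Γ t x g = 0 := if_neg h

theorem pi_in {g c : GQ} (h : g ∈ Γ) (x : GQ → Pt A B) :
    pi Γ c x g = x g - ga c (x (c * g * c)) := if_pos h

theorem pi_out {g c : GQ} (h : g ∉ Γ) (x : GQ → Pt A B) : pi Γ c x g = 0 := if_neg h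

variable (e : ∀ g ∈ Γ, ∀ y, t.symm (ga g y) = ga g (t.symm y))
include e

theorem rs_zl {x : GQ → Pt A' B'} (h : x ∈ Zl A' B' Γ) : rs Γ t x ∈ Zl A B Γ := by
  obtain ⟨h1, h2, k, h3⟩ := h
  refine ⟨?_, fun g a h b => ?_, k, fun g a => ?_⟩
  · exact (funext fun g : Γ => rs_in (t := t) g.2 x).symm ▸ h1.comp t.symm
  · rw [rs_in (mul_mem a b), rs_in a, rs_in b, h2 g a h b, map_add, e g a]
  · rw [rs_in a, ← map_nsmul, h3 g a, map_zero]

theorem rs_km (y : GQ → Pt A' B') {D : Subgroup GQ} (h : D ≤ Γ) :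
    rs Γ t y ∈ Km A B D ↔ y ∈ Km A' B' D := by
  refine ⟨fun ⟨Q, a⟩ => ⟨t Q, fun g b => t.symm.injective ?_⟩,
    fun ⟨Q, a⟩ => ⟨t.symm Q, fun g b => ?_⟩⟩
  · rw [← rs_in (h b), a g b, map_sub, e g (h b), t.symm_apply_apply]
  · rw [rs_in (h b), a g b, map_sub, e g (h b)]

theorem tl_eq {D : Subgroup GQ} (h : D ≤ Γ) : tl A B D = tl A' B' D := by
  refine Nat.card_congr (t.toEquiv.subtypeEquiv fun y => ?_)
  refine and_congr (exists_congr fun k => ?_) (forall₂_congr fun g a => ?_)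
  · show _ ↔ 2 ^ k • t y = 0
    rw [← map_nsmul, map_eq_zero_iff _ t.injective]
  · show _ ↔ ga g (t y) = t y
    rw [← t.symm.injective.eq_iff, e g (h a), t.symm_apply_apply]

end

namespace Su

variable (s : Su)

theorem cc2 : s.c * s.c = 1 := P004M.TE.conj_sq (hq s.p1.disc) s.cc

theorem cc_ga {a b : ℤ} (y : Pt a b) : ga s.c (ga s.c y) = y := by rw [← ga_mul, s.cc2, ga_one]

variable {s}

theorem mul_out {g h : GQ} (a : g ∉ s.Γ) (b : h ∉ s.Γ) : g * h ∈ s.Γ := by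
  rw [s.mem] at *
  rw [nu_mul]
  revert a b
  generalize nu s.d g = x, nu s.d h = y
  revert x y
  decide

theorem cgc {g : GQ} (a : g ∈ s.Γ) : s.c * g * s.c ∈ s.Γ :=
  mul_out (fun b => s.out ((mul_mem_cancel_right a).1 b)) s.out

theorem e0 (g : GQ) (a : g ∈ s.Γ) (y : Pt s.A' s.B') : s.t.symm (ga g y) = ga g (s.t.symm y) := by
  have := s.tw g (s.t.symm y)
  rw [sd, if_pos (s.mem g |>.1 a), one_smul, s.t.apply_symm_apply] at this
  rw [this, s.t.symm_apply_apply]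

theorem e1 {g : GQ} (a : g ∉ s.Γ) (y : Pt s.A' s.B') : s.t.symm (ga g y) = -ga g (s.t.symm y) := by
  have := s.tw g (s.t.symm y)
  rw [sd, if_neg (mt (s.mem g).2 a), neg_one_smul, s.t.apply_symm_apply] at this
  rw [this, s.t.symm_apply_apply]

/-- good reduction outside `S` -/
theorem good {l : ℕ} {P : Ideal (𝓞 Qb)} (o : Ov l P) (h : l ∉ s.S) :
    ¬ (l : ℤ) ∣ 2 * (4 * s.A ^ 3 + 27 * s.B ^ 2) := fun a =>
  ((Nat.prime_iff_prime_int.1 o.1).dvd_or_dvd a).elim (fun b => h (by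
    rw [(Nat.prime_dvd_prime_iff_eq o.1 Nat.prime_two).1 (by exact_mod_cast b)]
    exact s.p1.two)) (s.p1.bad l o.1 h)

/-- a framed cocycle is determined on `Γ` -/
theorem inj {a b : ℤ} {y : GQ → Pt a b} (h : Sh.Coc y) (h0 : y s.c = 0)
    (z : ∀ g ∈ s.Γ, y g = 0) : y = 0 := funext fun g => by
  by_cases a : g ∈ s.Γ
  · exact z g a
  · have := h (g * s.c) s.c
    rwa [mul_assoc, s.cc2, mul_one, z _ (mul_out a s.out), h0, map_zero, add_zero] at this

theorem cj {a b : ℤ} {y : GQ → Pt a b} (h : Sh.Coc y) (h0 : y s.c = 0) (g : GQ) :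
    y (s.c * g * s.c) = ga s.c (y g) := by
  rw [h, h, h0, map_zero, add_zero, zero_add]

end Su

theorem rb : RB := fun s => by
  have e : ∀ g ∈ s.Γ, ∀ y, (AddEquiv.refl (Pt s.A s.B)).symm (ga g y) =
    ga g ((AddEquiv.refl (Pt s.A s.B)).symm y) := fun _ _ _ => rfl
  refine ⟨?_, fun y h => ⟨funext fun g => ?_, fun z => Su.inj h.2.1 h.2.2.2.2 fun g a => ?_⟩,
    fun y D h => rs_km Su.e0 y h, fun y h => ⟨⟨⟨rs_zl e (Bt.Z0_le _ _ _ h), fun g a => ?_⟩,
    funext fun g => ?_⟩, fun z => Su.inj h.2.1 h.2.2.2.2 fun g a => ?_⟩,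
    fun y D h => rs_km e y h, fun D h => tl_eq Su.e0 h⟩
  · rintro _ ⟨y, ⟨h, u⟩, rfl⟩
    refine ⟨rs_zl Su.e0 (Bt.Z0_le _ _ _ h), fun g a => ?_⟩
    by_cases b : g ∈ s.Γ
    swap
    · exact rs_out b y
    obtain ⟨l, n, P, o, i⟩ := a.resolve_left (not_not.2 b)
    show rs s.Γ s.t y g = 0
    rw [rs_in b]
    by_cases m : l ∈ s.L
    · obtain ⟨Q, q⟩ := Sh.Coc.cj h.2.1 (s.p0.ov l (Finset.mem_union_right _ m)) o
        (AddSubgroup.mem_iInf.1 (AddSubgroup.mem_iInf.1 u l) m)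
      obtain ⟨k, z⟩ := h.2.2.1
      have w : s.t.symm (y g) = ga g (s.t.symm Q) - s.t.symm Q := by
        rw [q g (P004S.inert_dec i), map_sub, Su.e0 g b]
      rw [w, Sh.ur1 (Su.good o n) o i (k := k) (by rw [← w, ← map_nsmul, z, map_zero]), sub_self]
    · rw [h.2.2.2.1 g ⟨l, fun c => (Finset.mem_union.1 c).elim n m, P, o, i⟩, map_zero]
  · show pi s.Γ s.c (rs s.Γ s.t y) g = 2 • rs s.Γ s.t y g
    by_cases b : g ∈ s.Γ
    · rw [pi_in b, rs_in (Su.cgc b), Su.cj h.2.1 h.2.2.2.2, Su.e1 s.out, map_neg, s.cc_ga,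
        sub_neg_eq_add, rs_in b, two_nsmul]
    · rw [pi_out b, rs_out b, nsmul_zero]
  · exact s.t.symm.injective (((rs_in a y).symm.trans (congrFun z g)).trans (map_zero _).symm)
  · show rs s.Γ _ y g = 0
    by_cases b : g ∈ s.Γ
    · rw [rs_in b, h.2.2.2.1 g (a.resolve_left (not_not.2 b)), map_zero]
    · exact rs_out b y
  · show pi s.Γ s.c (rs s.Γ _ y) g = 0
    by_cases b : g ∈ s.Γ
    · rw [pi_in b, rs_in (Su.cgc b), Su.cj h.2.1 h.2.2.2.2, rs_in b]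
      exact sub_eq_zero.2 (s.cc_ga _).symm
    · exact pi_out b _
  · exact (rs_in a y).symm.trans (congrFun z g)

end Vale.Agent.P014T.Kx
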