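import Vale.Agent.P014T.Kx.Rb

/-! # P014T, block K: invariant cocycles over the imaginary quadratic field -/

set_option linter.all false

open NumberField
open scoped Classical

noncomputable section

namespace Vale.Agent.P014T.Kx

open Vale.Agent.P022 Vale.Agent.P004F
open Vale.Agent.P022K.G2 (In)
open Vale.Agent.P027M.S (Inert)
open Vale.Agent.P022D.W (dec)
open Vale.Agent.P022E.GW (Ov)
open P004M.TE (Pt ga ga_mul ga_one)
open P004S (nu nu_conj inert_mul inert_dec)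
open Bt (T2 Z0 Zl Km)
open Wm (Fx)

theorem inert_inv {P : Ideal (𝓞 Qb)} {g : GQ} (h : Inert P g) : Inert P g⁻¹ := fun x => by
  have := P.neg_mem (h (g⁻¹ • x))
  rwa [smul_inv_smul, neg_sub] at this

theorem inert_cj {P : Ideal (𝓞 Qb)} {g δ : GQ} (a : δ ∈ dec P) (h : Inert P g) :
    Inert P (δ * g * δ⁻¹) := fun x => by
  have := (a _).2 (h (δ⁻¹ • x))
  rwa [smul_sub, smul_inv_smul, ← mul_smul, ← mul_smul] at this

namespace Su

variable {s : Su}

variable (s) in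
/-- extension to the whole group, zero at `c` -/
def ex : (GQ → Pt s.A s.B) →+ GQ → Pt s.A s.B where
  toFun x g := if g ∈ s.Γ then x g else x (g * s.c)
  map_zero' := funext fun g => by simp
  map_add' x y := funext fun g => by by_cases h : g ∈ s.Γ <;> simp [h]

theorem ex_in {g : GQ} (h : g ∈ s.Γ) (x : GQ → Pt s.A s.B) : s.ex x g = x g := if_pos h

theorem ex_out {g : GQ} (h : g ∉ s.Γ) (x : GQ → Pt s.A s.B) : s.ex x g = x (g * s.c) := if_neg h

theorem G_open : IsOpen (s.Γ : Set GQ) := by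
  have := P004S.kn_open s.d
  rwa [← show s.Γ = P004S.kn s.d from Subgroup.ext s.mem] at this

theorem out_L {l : ℕ} (m : l ∈ s.L) : l ∉ s.S := Finset.disjoint_right.1 s.dj m

theorem ovL {l : ℕ} (m : l ∈ s.L) : Ov l (s.P l) := s.p0.ov l (Finset.mem_union_right _ m)

/-- inertia at a good prime fixes the torsion -/
theorem fix {l k : ℕ} {P : Ideal (𝓞 Qb)} (o : Ov l P) (n : l ∉ s.S) {g : GQ} (i : Inert P g)
    {y : Pt s.A s.B} (h : 2 ^ k • y = 0) : ga g y = y :=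
  Sh.ur1 (good o n) o i (k := k) (by rw [nsmul_sub, ← map_nsmul, h, map_zero, sub_zero])

theorem finL {l : ℕ} (m : l ∈ s.L) : Finite ↥(T2 s.A' s.B' ⊓ Fx s.A' s.B' (dec (s.P l))) := by
  obtain ⟨τ, i, n⟩ := s.ram l m
  have : Finite (P025H816.tors (Pt s.A' s.B') (2 ^ 1)) :=
    Nat.finite_of_card_ne_zero (by rw [P004M.TE.card_pow (hq s.p0.disc)]; positivity)
  refine Finite.of_injective (β := P025H816.tors (Pt s.A' s.B') (2 ^ 1))
    (fun y => ⟨y.1, ?_⟩) fun a b h => Subtype.ext (Subtype.mk.inj h)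
  obtain ⟨⟨k, a⟩, b⟩ := y.2
  have := e1 n y.1
  rw [b τ (inert_dec i), fix (ovL m) (out_L m) i (k := k) (by rw [← map_nsmul, a, map_zero]),
    ← map_neg, s.t.symm.injective.eq_iff, eq_neg_iff_add_eq_zero] at this
  show 2 ^ 1 • y.1 = 0
  rwa [pow_one, two_nsmul]

variable {x : GQ → Pt s.A s.B} (h : x ∈ s.Z ⊓ s.π.ker)
include h

theorem cx {g : GQ} (a : g ∈ s.Γ) : x (s.c * g * s.c) = ga s.c (x g) := by
  have := congrFun h.2 g
  rw [show s.π x g = _ from pi_in a x, Pi.zero_apply, sub_eq_zero] at this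
  rw [this, s.cc_ga]

theorem ex_co : Sh.Coc (s.ex x) := fun g j => by
  have k := h.1.1.2.1
  have w : ∀ u v : GQ, u * s.c * (s.c * v) = u * v := fun u v => by
    rw [mul_assoc, ← mul_assoc s.c, s.cc2, one_mul]
  by_cases a : g ∈ s.Γ <;> by_cases b : j ∈ s.Γ
  · rw [ex_in (mul_mem a b), ex_in a, ex_in b, k g a j b]
  · rw [ex_out (mt (mul_mem_cancel_left a).1 b), ex_in a, ex_out b, mul_assoc,
      k g a _ (mul_out b s.out)]
  · rw [ex_out (mt (mul_mem_cancel_right b).1 a), ex_out a, ex_in b, mul_assoc, ← w, ← mul_assoc s.c,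
      k _ (mul_out a s.out) _ (cgc b), cx h b, ← ga_mul, mul_assoc, s.cc2, mul_one]
  · have e : s.c * (j * s.c) * s.c = s.c * j := by rw [mul_assoc, mul_assoc, s.cc2, mul_one]
    rw [ex_in (mul_out a b), ex_out a, ex_out b, ← w, k _ (mul_out a s.out) _ (mul_out s.out b), ← e,
      cx h (mul_out b s.out), ← ga_mul, mul_assoc, s.cc2, mul_one]

theorem ex_tor : ∃ k : ℕ, ∀ g, 2 ^ k • s.ex x g = 0 := h.1.1.2.2.imp fun k a g => by
  by_cases b : g ∈ s.Γ
  · rw [ex_in b, a g b]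
  · rw [ex_out b, a _ (mul_out b s.out)]

theorem ex_lc : IsLocallyConstant (s.ex x) := by
  have o := G_open.isOpenMap_subtype_val _ (h.1.1.1.isOpen_fiber (x 1))
  refine P004S.lc_of_open o ⟨⟨1, one_mem _⟩, rfl, rfl⟩ ?_
  rintro g _ ⟨u, a, rfl⟩
  have z := (ex_co h).one
  rw [ex_in (one_mem _)] at z
  rw [ex_co h, ex_in u.2, show x u = x 1 from a, z, map_zero, add_zero]

theorem ex_c : s.ex x s.c = 0 := by
  rw [ex_out s.out, s.cc2, ← ex_in s.Γ.one_mem x, (ex_co h).one]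

theorem ex_ur {l : ℕ} {P : Ideal (𝓞 Qb)} (o : Ov l P) (n : l ∉ s.S) {g : GQ} (i : Inert P g)
    (a : g ∈ s.Γ) : s.ex x g = 0 := (ex_in a x).trans (h.1.2 g (Or.inr ⟨l, n, P, o, i⟩))

theorem ex_eq {l : ℕ} {P : Ideal (𝓞 Qb)} (o : Ov l P) (n : l ∉ s.S) {g τ : GQ} (i : Inert P g)
    (j : Inert P τ) (a : g ∉ s.Γ) (b : τ ∉ s.Γ) : s.ex x g = s.ex x τ := by
  rw [← mul_inv_cancel_left τ g, ex_co h, ex_ur h o n (inert_mul (inert_inv j) i)
    (mul_out (mt inv_mem_iff.1 b) a), map_zero, add_zero]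

theorem ex_mem {l : ℕ} (m : l ∈ s.L) {τ : GQ} (i : Inert (s.P l) τ) (n : τ ∉ s.Γ) :
    s.t (s.ex x τ) ∈ T2 s.A' s.B' ⊓ Fx s.A' s.B' (dec (s.P l)) := by
  obtain ⟨k, z⟩ := ex_tor h
  have c := ex_co h
  have f := fun g => fix (ovL m) (out_L m) i (z g)
  have t2 : s.ex x τ + s.ex x τ = 0 := by
    rw [← ex_ur h (ovL m) (out_L m) (inert_mul i i) (mul_out n n), c, f]
  refine ⟨⟨k, by rw [← map_nsmul, z, map_zero]⟩, fun g a => s.t.symm.injective ?_⟩
  have e : ga g (s.ex x τ) = s.ex x τ := by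
    have u := c g g⁻¹
    rw [mul_inv_cancel, c.one] at u
    have v := ex_eq h (ovL m) (out_L m) (inert_cj a i) i (by rwa [s.mem, nu_conj, ← s.mem]) n
    rwa [c, c, ga_mul, f, add_right_comm, ← u, zero_add] at v
  by_cases b : g ∈ s.Γ
  · rw [e0 g b, s.t.symm_apply_apply, e]
  · rw [e1 b, s.t.symm_apply_apply, e, neg_eq_iff_add_eq_zero, t2]

theorem ex_Z0 (z : ∀ l ∈ s.L, ∃ τ, Inert (s.P l) τ ∧ τ ∉ s.Γ ∧ s.ex x τ = 0) :
    s.ex x ∈ Z0 s.A s.B s.S s.c := by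
  refine ⟨ex_lc h, ex_co h, ex_tor h, ?_, ex_c h⟩
  rintro g ⟨l, n, P, o, i⟩
  by_cases a : g ∈ s.Γ
  · exact ex_ur h o n i a
  have m : l ∈ s.L := by_contra fun m =>
    a (s.un g ⟨l, fun c => (Finset.mem_union.1 c).elim n m, P, o, i⟩)
  obtain ⟨τ, j, b, e⟩ := z l m
  obtain ⟨u, v, -⟩ := P004S.ex_conj (ovL m) o
  obtain ⟨k, z⟩ := ex_tor h
  have c := ex_co h
  have w := c u (u⁻¹ * g * u)
  rw [ex_eq h (ovL m) n (v g i) j (by
    rwa [s.mem, ← nu_conj _ u, ← mul_assoc, mul_inv_cancel_left, mul_inv_cancel_right, ← s.mem]) b,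
    e, map_zero, add_zero, ← mul_assoc, mul_inv_cancel_left, c, fix o n i (z u)] at w
  exact add_eq_right.1 w

end Su

theorem rc : RC := fun s => by
  choose τ i n using s.ram
  have := fun l : s.L => Su.finL l.2
  let φ : ↥(s.Z ⊓ s.π.ker) →+ ∀ l : s.L, ↥(T2 s.A' s.B' ⊓ Fx s.A' s.B' (dec (s.P l))) :=
    { toFun := fun x l => ⟨_, Su.ex_mem x.2 l.2 (i l l.2) (n l l.2)⟩
      map_zero' := funext fun l => Subtype.ext (by simp)
      map_add' := fun x y => funext fun l => Subtype.ext (by simp) }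
  have le : φ.ker ≤ ((Z0 s.A s.B s.S s.c).map s.r1).addSubgroupOf _ := fun x z =>
    ⟨s.ex x, Su.ex_Z0 x.2 fun l m => ⟨_, i l m, n l m, s.t.injective
      ((congrArg Subtype.val (congrFun z ⟨l, m⟩)).trans (map_zero _).symm)⟩, funext fun g => by
        by_cases a : g ∈ s.Γ
        · exact (rs_in a _).trans (Su.ex_in a _)
        · exact (rs_out a _).trans (x.2.1.2 g (Or.inl a)).symm⟩
  have e : φ.ker.index ≠ 0 := by
    rw [AddSubgroup.index_ker]
    exact Nat.card_pos.ne'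
  have d := AddSubgroup.index_dvd_of_le le
  refine ⟨ne_zero_of_dvd_ne_zero e d, (Nat.le_of_dvd (Nat.pos_of_ne_zero e) d).trans ?_⟩
  rw [AddSubgroup.index_ker, ← Finset.prod_coe_sort]
  exact (Nat.card_le_card_of_injective _ Subtype.val_injective).trans Nat.card_pi.le

end Vale.Agent.P014T.Kx
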