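import Vale.Agent.P014T.Kx.Up
import Vale.Agent.P014T.Kx.St
import Vale.Agent.P014T.Cp.Nn
import Vale.Agent.P014T.Lc.Fx

/-!
# P014T, block K: the rows UP0 and UP1 (helper96)
-/

set_option linter.all false

open NumberField
open scoped Classical

noncomputable section

namespace Vale.Agent.P014T.Kx.Up

open Vale.Agent.P022 (Qb GQ IsConj)
open Vale.Agent.P022D.W (dec)
open Vale.Agent.P022E.GW (Ov)
open P004M.TE (Pt)
open AddSubgroup Bt
open Ba (Tp)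
open Wm (Fx)

variable {A B : ℤ} {S : Finset ℕ} {c : GQ} {P : ℕ → Ideal (𝓞 Qb)} {p : ℕ} {Q : Ideal (𝓞 Qb)}

theorem md (A B : ℤ) : Sm.Md (Lc.Wq ⟨0, 0, 0, A, B⟩) A B 1 0 0 0 := by
  refine ⟨one_ne_zero, ?_, ?_, ?_, ?_, ?_⟩ <;> simp

theorem disc (hD : 4 * A ^ 3 + 27 * B ^ 2 ≠ 0) : (⟨0, 0, 0, A, B⟩ : WeierstrassCurve ℤ).Δ ≠ 0 :=
  fun e => hD (by
    simp only [WeierstrassCurve.Δ, WeierstrassCurve.b₂, WeierstrassCurve.b₄, WeierstrassCurve.b₆,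
      WeierstrassCurve.b₈] at e
    linarith)

theorem lo (hD : 4 * A ^ 3 + 27 * B ^ 2 ≠ 0) (o : Ov p Q) (h : p ≠ 2) : Lo (Fx A B (dec Q)) := by
  have := Cp.fin_tp (A := A) (B := B) (by exact_mod_cast hD) o
  refine ⟨Finite.of_injective (β := Tp (Fx A B (dec Q)))
    (fun ⟨t, a, b⟩ => ⟨⟨t, b⟩, Exists.imp (fun _ a => Subtype.ext a) a⟩)
      fun ⟨_, _, _⟩ ⟨_, _, _⟩ e => Subtype.ext (congrArg (·.1.1) e), fun y m => ?_⟩
  obtain ⟨t, ⟨k, b⟩, y', e⟩ := (Lc.odd (disc hD) (md A B) o h).2 ⟨y, m⟩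
  exact ⟨t, ⟨⟨k, congrArg Subtype.val b⟩, t.2⟩, y', y'.2, congrArg Subtype.val e⟩

theorem ex_lp (h : Pl A B S P) (hc : IsConj c) : ∃ pl, Lp (A := A) (B := B) S c P pl := by
  have hD : 4 * (A : ℚ) ^ 3 + 27 * (B : ℚ) ^ 2 ≠ 0 := by exact_mod_cast h.disc
  refine ⟨fun p => if m : p ∈ S then Cp.pr (Ki.pr hD) (Cp.ivP (h.ov p m)) else 0, fun p m y => ?_,
    fun x y => ?_⟩
  · simp only [dif_pos m]
    exact Cp.nn hD (h.ov p m) _ y
  · rw [← Finset.sum_coe_sort, ← Cp.rr hD (Ki.pr hD) (fun l m => by_contra fun n => ?_) P h.ov hc x.2 y.2]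
    · exact Finset.sum_congr rfl fun p _ => by rw [dif_pos p.2]; rfl
    · have a := Nat.prime_of_mem_primeFactors m
      exact ((Nat.prime_iff_prime_int.1 a).dvd_or_dvd (Int.natCast_dvd.2
        (Nat.dvd_of_mem_primeFactors m))).elim (fun b => n (((Nat.prime_dvd_prime_iff_eq a
          Nat.prime_two).1 (Int.natCast_dvd_natCast.1 b)).symm ▸ h.two)) (h.bad l a n)

theorem prod_ne {V : Finset ℕ} (h : ∀ p ∈ V, Lo (Fx A B (dec (P p)))) :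
    ∏ p ∈ V, tl A B (dec (P p)) ≠ 0 :=
  Finset.prod_ne_zero_iff.2 fun p m => Nat.card_ne_zero.2 ⟨⟨0⟩, (h p m).fin⟩

theorem up1 : UP1 := fun A B S P c h hc ⟨y, m, n⟩ j => by
  obtain ⟨pl, L⟩ := ex_lp h hc
  obtain ⟨ι, hι⟩ := Ah.ex_ind (h.ov 2 h.two)
  obtain ⟨lg, y0, -, k, a1, a2, a3, -⟩ := Lc.two (disc h.disc) (md A B) hι
  have l : ∀ p ∈ S.erase 2, Lo (Fx A B (dec (P p))) := fun p m =>
    lo h.disc (h.ov p (Finset.mem_of_mem_erase m)) (Finset.ne_of_mem_erase m)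
  have e : Sat (Fx A B ⊤) = Dv A B := AddSubgroup.ext fun _ => mem_Sat
  have d := up_one L le_rfl le_rfl (fun _ _ _ a b => (b a).elim) h.two l
    ⟨Cp.fin_tp (by exact_mod_cast h.disc) (h.ov 2 h.two), a1, a2, a3⟩ ⟨y, m⟩
    (fun a => n ((AddSubgroup.subtype _).isOfFinAddOrder ((k _).1 a))) (e ▸ j)
  rw [e] at d
  have z := mul_ne_zero j (prod_ne l)
  exact ⟨ne_zero_of_dvd_ne_zero z d, Nat.le_of_dvd (Nat.pos_of_ne_zero z) d⟩

theorem up0' : UP0 := fun A B S P c U h hc le => by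
  obtain ⟨pl, L⟩ := ex_lp h hc
  have mz : ∀ {x}, x ∈ ZU A B S c P U ↔ x ∈ Z0 A B S c ∧ ∀ p ∈ U, x ∈ Km A B (dec (P p)) := by
    simp [ZU, AddSubgroup.mem_iInf]
  refine ⟨fun n => ?_, fun m n => ?_⟩
  · obtain rfl | ne := U.eq_empty_or_nonempty
    · simp [ZU]
    have l : ∀ p ∈ U, Lo (Fx A B (dec (P p))) := fun p m =>
      lo h.disc (h.ov p (le m)) fun e => n (e ▸ m)
    have d := pi0 (G := ⊥) (pl := fun p => (pl p).compl₂ (inclusion (Z0_le S c _))) (fun _ => bot_le)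
      (tor le_rfl) (fun x z => by simp [Subsingleton.elim x 0]) ne l
    rw [show Ba.Zf _ = (ZU A B S c P U).addSubgroupOf (Z0 A B S c) from AddSubgroup.ext fun z => zf_iff.trans
      ⟨fun a => mz.2 ⟨z.2, fun p m => (L.nn p (le m) (inclusion (Z0_le S c _) z)).1 (a p m)⟩,
        fun a p m => (L.nn p (le m) _).2 ((mz.1 a).2 p m)⟩] at d
    exact left_ne_zero_of_mul (ne_zero_of_dvd_ne_zero (prod_ne l) d)
  · have l : ∀ p ∈ S \ U, Lo (Fx A B (dec (P p))) := fun p a =>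
      lo h.disc (h.ov p (Finset.mem_sdiff.1 a).1) fun e => (Finset.mem_sdiff.1 a).2 (e ▸ m)
    have d := up_zero L (Z := ZU A B S c P U) inf_le_left Finset.sdiff_subset (fun z a p b v =>
      (mz.1 a).2 p (by_contra fun k => v (Finset.mem_sdiff.2 ⟨b, k⟩)))
      (Finset.sdiff_nonempty.2 fun k => n (le.antisymm k)) l
    exact ⟨left_ne_zero_of_mul (ne_zero_of_dvd_ne_zero (prod_ne l) d),
      Nat.le_of_dvd (Nat.pos_of_ne_zero (prod_ne l)) d⟩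

end Vale.Agent.P014T.Kx.Up
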