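import Vale.Agent.P004F.All0
import Vale.Agent.P014T.Kx.Fx
import Vale.Agent.P014T.Kx.Kx
import Vale.Agent.P014T.Kx.Esx
import Vale.Agent.P014T.Kx.Ker
import Vale.Agent.P014T.Kx.Tr1
import Vale.Agent.P014T.Kx.Cvt
import Vale.Agent.P014T.Kx.Inf
import Vale.Agent.P014T.Kx.Ka
import Vale.Agent.P014T.Kx.Kb
import Vale.Agent.P014T.Kx.Ra
import Vale.Agent.P014T.Kx.Rb
import Vale.Agent.P014T.Kx.Rc
import Vale.Agent.P014T.Kx.Pt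
import Vale.Agent.P014T.Kx.Upc

/-! # P014T, block K: the wiring -/

namespace Vale.Agent.P014T.Kx

open Vale.Agent.P004K Vale.Agent.P004F

theorem z_esx : ESX :=
  esx Qx.fg Qx.fr Ix.idx z_spl x_rc1 z_gns z_tyq Es.red Es.coo z_tow Es.lam

theorem z_sqv : SQV :=
  sqv x_rc1 x_rc2 z_esx z_pe z_dpl z_cnt (Pa.sep_row x_rc1 x_rc2 En.uni_row En.nsc_row)

theorem z_fx : FX :=
  fx ker z_sqv (Pa.glb x_rc1 x_rc2 Ch.abs z_lgc) (Pa.lmx z_lev) (Pa.lok Pa.pk1)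
    (Pa.lis z_isl (Pa.eta x_rc2 (van x_rc2) Pa.twv))
    (Pa.lex Pa.pk1 z_kpx (Pa.lmx z_lev) (Pa.exl x_rc1 x_rc2)) Pa.num

theorem z_kb : KB := kb Up.up1 Up.up0' (inf Up.up0') ka ra rb rc pt

theorem kx0 (h2 : TR2) : KX :=
  kx z_fx (tr1 x_rc1 x_rc2 x_rc3) h2 (cvt ft) z_kb Qx.fg

end Vale.Agent.P014T.Kx
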