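import Vale.Agent.P014T.Kx.St
import Vale.Agent.P014T.Bt.Ac
import Vale.Agent.P014T.Sh.Ur

/-! # P014T, block K: the classes which come from points -/

set_option autoImplicit false
set_option linter.all false

open NumberField AddSubgroup
open scoped Classical

noncomputable section

namespace Vale.Agent.P014T.Kx

open Vale.Agent.P022 Vale.Agent.P004F
open Vale.Agent.P022D.W (dec)
open P004M.TE (Pt ga ga_mul ev_ga)
open Bt (T2 Z0 Zk dd Ac rel_card)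
open Wm (Fx)

namespace Pn

theorem core {X F : Type} [AddCommGroup X] [AddCommGroup F] (δ : X →+ F)
    (M₁ M₀ J R C : AddSubgroup X) {B₁ B₀ W : AddSubgroup F} (h1 : B₁ ≤ M₁.map δ)
    (h0 : B₀ ≤ M₀.map δ) (hW : W ≤ J.map δ) (r1 : R ≤ M₁) (r2 : R ≤ δ.ker ⊓ J) [Finite C]
    (hC : M₁ ⊓ M₀ ≤ C) (hN : ∀ u ∈ M₀, ∀ q ∈ M₁, δ q = δ u → u - q ∈ J) (hj : R.relIndex J ≠ 0) :
    Finite W ∧ Nat.card ↥(B₁ ⊓ B₀) * Nat.card W * Nat.card ↥(δ.ker ⊓ M₀) ≤
      Nat.card C * R.relIndex J := by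
  have e := relIndex_mul_relIndex R _ J r2 inf_le_right
  rw [inf_relIndex_right, relIndex_ker] at e
  rw [← e] at hj ⊢
  have : Finite (J.map δ) := Nat.finite_of_card_ne_zero (right_ne_zero_of_mul hj)
  refine ⟨.of_injective _ (inclusion_injective hW), ?_⟩
  let N := M₀ ⊓ (M₁.map δ).comap δ
  have n1 : N ≤ M₁ ⊔ δ.ker ⊓ J := fun u ⟨a, q, b, c⟩ => mem_sup.2 ⟨q, b, u - q,
    ⟨show δ (u - q) = 0 by rw [map_sub, c, sub_self], hN u a q b c⟩,
    add_sub_cancel _ _⟩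
  have a0 := left_ne_zero_of_mul hj
  have a1 := mt (relIndex_eq_zero_of_le_left r1) a0
  have n2 := relIndex_le_of_le_right n1 (by rwa [relIndex_sup_left])
  have n3 := mt (relIndex_eq_zero_of_le_right n1) (by rwa [relIndex_sup_left])
  rw [relIndex_sup_left] at n2
  have c1 : M₁ ⊓ N ≤ C := (inf_le_inf_left _ inf_le_left).trans hC
  have : Finite ↥(M₁ ⊓ N) := .of_injective _ (inclusion_injective c1)
  have k := (rel_card δ.ker N).trans (rel_card M₁ N).symm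
  rw [relIndex_ker, show δ.ker ⊓ N = δ.ker ⊓ M₀ from le_antisymm (inf_le_inf_left _ inf_le_left)
    fun u a => ⟨a.1, a.2, 0, zero_mem _, (map_zero δ).trans a.1.symm⟩] at k
  have : Finite (N.map δ) := Nat.finite_of_card_ne_zero (left_ne_zero_of_mul
    (k ▸ mul_ne_zero n3 Nat.card_pos.ne'))
  have b : B₁ ⊓ B₀ ≤ N.map δ := fun x a => by
    obtain ⟨u, c, rfl⟩ := h0 a.2
    exact ⟨u, ⟨c, h1 a.1⟩, rfl⟩
  calc _ ≤ Nat.card (N.map δ) * Nat.card (J.map δ) * Nat.card ↥(δ.ker ⊓ M₀) := by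
        gcongr
        exacts [card_le_of_le b, card_le_of_le hW]
    _ ≤ _ := by
        rw [mul_right_comm, k, mul_comm (M₁.relIndex N), mul_assoc]
        gcongr
        exacts [card_le_of_le c1, n2.trans (relIndex_le_of_le_left r1 a0)]

variable {A B : ℤ} {S : Finset ℕ} {P : ℕ → Ideal (𝓞 Qb)} {c : GQ}

theorem dd_mem (h : Pl A B S P) {Q : Pt A B} (a : Q ∈ Dv A B) (b : ga c Q = Q) :
    dd A B Q ∈ Zk A B S c := by
  obtain ⟨k, a⟩ := a
  have e : ∀ g, 2 ^ k • (ga g Q - Q) = 0 := fun g => by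
    rw [nsmul_sub, ← map_nsmul, a g trivial, sub_self]
  refine ⟨⟨(IsLocallyConstant.iff_eventually_eq _).2 fun g => (ev_ga g Q).mono fun u e =>
    congrArg (· - Q) e, fun g u => ?_, ⟨k, e⟩, fun g ⟨l, m, R, o, i⟩ => sub_eq_zero.2
    (Sh.ur1 (fun d => ?_) o i (e g)), sub_eq_zero.2 b⟩, Q, fun _ _ => rfl⟩
  · simp only [Bt.dd_apply, ga_mul, map_sub]
    abel
  · refine ((Nat.prime_iff_prime_int.1 o.1).dvd_or_dvd d).elim (fun d => m ?_) (h.bad l o.1 m)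
    rw [(Nat.prime_dvd_prime_iff_eq o.1 Nat.prime_two).1 (by exact_mod_cast d)]
    exact h.two

theorem of_mem {x : GQ → Pt A B} (h : x ∈ Zk A B S c) :
    ∃ Q ∈ Dv A B, ga c Q = Q ∧ dd A B Q = x := by
  obtain ⟨⟨-, -, ⟨k, a⟩, -, b⟩, Q, e⟩ := h
  exact ⟨Q, ⟨k, fun g _ => by rw [map_nsmul, ← sub_eq_zero, ← nsmul_sub, ← e g trivial, a]⟩,
    sub_eq_zero.1 ((e c trivial).symm.trans b), funext fun g => (e g trivial).symm⟩

theorem of_fin [Finite (Fx A B ⊤)] {x : GQ → Pt A B} (h : x ∈ Zk A B S c) :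
    ∃ Q ∈ Ac A B c, dd A B Q = x := by
  obtain ⟨Q, ⟨k, a⟩, b, rfl⟩ := of_mem h
  obtain ⟨e, m, o, n⟩ := Nat.exists_eq_two_pow_mul_odd (Nat.card_pos (α := Fx A B ⊤)).ne'
  have z : (2 ^ e * m) • 2 ^ k • Q = 0 :=
    n ▸ congrArg Subtype.val (card_nsmul_eq_zero' (x := (⟨_, a⟩ : Fx A B ⊤)))
  obtain ⟨u, v, w⟩ := Nat.isCoprime_iff_coprime.2 ((Nat.coprime_two_right.2 o).pow_right k)
  refine ⟨(u * m) • Q, ⟨⟨e + k, ?_⟩, ?_⟩, ?_⟩
  · rw [← smul_zero u, ← z, ← natCast_zsmul, ← natCast_zsmul, ← natCast_zsmul, smul_smul,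
      smul_smul, smul_smul]
    congr 1
    push_cast
    ring
  · exact (map_zsmul _ _ _).trans (congrArg _ b)
  · rw [eq_sub_of_add_eq w, sub_smul, one_smul, map_sub, mul_smul, natCast_zsmul, map_zsmul,
      show dd A B (2 ^ k • Q) = 0 from Bt.ker_dd.2 fun g => a g trivial, zsmul_zero, sub_zero]

theorem T2_le : T2 A B ≤ Dv A B := fun _ ⟨k, a⟩ => ⟨k, a ▸ zero_mem _⟩

variable (s : Su)

theorem t_in {g : GQ} (h : g ∈ s.Γ) (y : Pt s.A s.B) : ga g (s.t y) = s.t (ga g y) := by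
  rw [s.tw, sd, if_pos ((s.mem g).1 h), one_smul]

theorem t_out {g : GQ} (h : g ∉ s.Γ) (y : Pt s.A s.B) : ga g (s.t y) = -s.t (ga g y) := by
  rw [s.tw, sd, if_neg (mt (s.mem g).2 h), neg_smul, one_smul, map_neg]

theorem fx_top {y : Pt A B} (h : y ∈ Fx A B s.Γ) (k : ga s.c y = y) : y ∈ Fx A B ⊤ := fun g _ => by
  by_cases a : g ∈ s.Γ
  · exact h g a
  rw [← inv_mul_cancel_right g s.c, ga_mul, k]
  refine h _ ((s.mem _).2 ?_)
  rw [P004S.nu_mul, P004S.nu_inv, (P004S.z2 _).resolve_left (mt (s.mem _).2 a),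
    (P004S.z2 _).resolve_left (mt (s.mem _).2 s.out)]
  rfl

theorem ker_rs {A' B' : ℤ} {Γ : Subgroup GQ} {t : Pt A B ≃+ Pt A' B'} {y : Pt A' B'} :
    rs Γ t (dd A' B' y) = 0 ↔ y ∈ Fx A' B' Γ :=
  funext_iff.trans (forall_congr' fun g => by
    by_cases a : g ∈ Γ <;> simp [rs, a, Bt.dd_apply, sub_eq_zero])

theorem r0_dd (y : Pt s.A s.B) : s.r0 (dd _ _ (s.t y)) = s.r1 (dd _ _ y) := funext fun g => by
  by_cases a : g ∈ s.Γ <;> simp [rs, a, Bt.dd_apply, t_in]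

end Pn

open Pn in
theorem pt : PT := fun s f hj => by
  have le := s.le 2 (Finset.mem_insert_self _ _)
  let δ := s.r1.comp (dd s.A s.B)
  let M₁ := Dv s.A s.B ⊓ (ga s.c).eqLocus (AddMonoidHom.id _)
  let M₀ := (Ac s.A' s.B' s.c).comap s.t.toAddMonoidHom
  have m0 : M₀ ≤ Dv s.A s.B := fun u ⟨⟨k, a⟩, _⟩ => T2_le ⟨k, s.t.injective (by
    rw [map_nsmul, map_zero]; exact a)⟩
  have h1 : s.B1 ≤ M₁.map δ := by
    rintro _ ⟨x, a, rfl⟩
    obtain ⟨Q, b, c, rfl⟩ := of_mem a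
    exact ⟨Q, ⟨b, c⟩, rfl⟩
  have h0 : s.B0 ≤ M₀.map δ := by
    rintro _ ⟨x, a, rfl⟩
    obtain ⟨Q, b, rfl⟩ := of_fin a
    obtain ⟨Q, rfl⟩ := s.t.surjective Q
    exact ⟨Q, b, (r0_dd s Q).symm⟩
  have c4 : Nat.card (P025H816.tors (Pt s.A s.B) 2) = 4 :=
    P004M.TE.card_two two_ne_zero (Bt.hq s.p1.disc)
  have : Finite (P025H816.tors (Pt s.A s.B) 2) := Nat.finite_of_card_ne_zero (by
    rw [c4]; norm_num)
  let C := (ga s.c).eqLocus (AddMonoidHom.id _) ⊓ P025H816.tors (Pt s.A s.B) 2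
  have : Finite C := .of_injective _ (inclusion_injective inf_le_right)
  have key := core δ M₁ M₀ (Dv s.A s.B ⊓ Fx s.A s.B (dec (s.P 2))) (Fx s.A s.B ⊤) C
    (W := s.W ⊓ (s.B1 ⊔ s.B0)) h1 h0 (fun x a => by
      obtain ⟨_, ⟨q, b, rfl⟩, _, ⟨u, c, rfl⟩, rfl⟩ := mem_sup.1 (sup_le_sup h1 h0 a.2)
      refine ⟨q + u, ⟨add_mem b.1 (m0 c), fun g d => ?_⟩, map_add _ _ _⟩
      have := a.1.2 g d
      rw [← map_add] at this
      exact sub_eq_zero.1 ((if_pos (le d)).symm.trans this))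
    (fun y a => ⟨⟨0, by rwa [pow_zero, one_smul]⟩, a _ trivial⟩)
    (fun y a => ⟨ker_rs.2 fun g _ => a g trivial, ⟨0, by rwa [pow_zero, one_smul]⟩,
      fun g _ => a g trivial⟩)
    (fun y a => ⟨a.1.2, by
      have b : ga s.c (s.t y) = s.t y := a.2.2
      rw [t_out s s.out, show ga s.c y = y from a.1.2, ← map_neg] at b
      show 2 • y = 0
      rw [two_nsmul]
      exact add_eq_zero_iff_neg_eq.2 (s.t.injective b)⟩)
    (fun u a q b e => ⟨(Dv s.A s.B).sub_mem (m0 a) b.1, fun g d => ker_rs.1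
      (show δ (u - q) = 0 by rw [map_sub, e, sub_self]) g (le d)⟩) hj
  refine ⟨not_finite_iff_infinite.1 fun n => ?_, key.1, ?_⟩
  · let φ := s.r0.comp (dd s.A' s.B')
    have i1 : (Ac s.A' s.B' s.c).map φ ≤ s.B0 :=
      fun _ ⟨Q, a, e⟩ => ⟨_, dd_mem s.p0 (T2_le a.1) a.2, e⟩
    have i2 : φ.ker ⊓ Ac s.A' s.B' s.c ≤ Fx s.A' s.B' ⊤ :=
      fun Q a => fx_top s (ker_rs.1 a.1) a.2.2
    have := Finite.of_injective _ (inclusion_injective i1)
    have := Finite.of_injective _ (inclusion_injective i2)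
    have k := rel_card φ.ker (Ac s.A' s.B' s.c)
    rw [relIndex_ker] at k
    have := Nat.finite_of_card_ne_zero (k ▸ mul_ne_zero Nat.card_pos.ne' Nat.card_pos.ne')
    obtain ⟨g, hg⟩ := Bt.ex_gp s.p0.disc s.cc
    refine not_injective_infinite_finite
      (fun k => (⟨Bt.hm g (Ba.u k), hg.le ⟨_, rfl⟩⟩ : Ac s.A' s.B' s.c)) fun i j e => ?_
    have := congrArg addOrderOf (Bt.hm_inj hg.2 (congrArg Subtype.val e))
    rw [Ba.ord_u, Ba.ord_u] at this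
    exact Nat.pow_right_injective le_rfl this
  · convert key.2 using 2
    · exact (Nat.card_congr (s.t.toEquiv.subtypeEquiv fun y => ⟨fun a => ⟨a.2.1, fx_top s
        (ker_rs.1 ((r0_dd s y).trans a.1)) a.2.2⟩, fun a => ⟨(r0_dd s y).symm.trans
        (ker_rs.2 fun g _ => a.2 g trivial), a.1, a.2 _ trivial⟩⟩)).symm
    · exact Nat.card_congr (Equiv.subtypeEquivRight fun y => and_comm)
    · rfl

end Vale.Agent.P014T.Kx
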