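import Vale.Agent.P014T.Kx.Up0
import Vale.Agent.P014T.Pq.El

/-!
# P014T, block K: upper bounds for the index of the Selmer part (helper96)
-/

set_option linter.all false

open NumberField
open scoped Classical

noncomputable section

namespace Vale.Agent.P014T.Kx.Up

open Vale.Agent.P022 (Qb GQ)
open Vale.Agent.P022D.W (dec)
open P004M.TE (Pt ga mt)
open Vale.Agent.P004S.Ga (K)
open AddSubgroup Ba Bt
open Wm (Fx)

variable {A B : ℤ} {S V : Finset ℕ} {c : GQ} {P : ℕ → Ideal (𝓞 Qb)} {D : Subgroup GQ}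
  {pl : ∀ p : ℕ, Fx A B (dec (P p)) →+ Zl A B (dec (P p)) →+ Dv} {Z : AddSubgroup (GQ → Pt A B)}

theorem top_le (D : Subgroup GQ) : Fx A B ⊤ ≤ Fx A B D := fun _ h g _ => h g trivial

/-- local pairings with the Kummer condition as kernel and the reciprocity law -/
structure Lp (S : Finset ℕ) (c : GQ) (P : ℕ → Ideal (𝓞 Qb))
    (pl : ∀ p : ℕ, Fx A B (dec (P p)) →+ Zl A B (dec (P p)) →+ Dv) : Prop where
  nn : ∀ p ∈ S, ∀ y, (∀ x, pl p x y = 0) ↔ y.1 ∈ Km A B (dec (P p))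
  rr : ∀ (x : Fx A B ⊤) (y : Z0 A B S c),
    ∑ p ∈ S, pl p (inclusion (top_le _) x) (inclusion (Z0_le S c _) y) = 0

theorem t2_eq : T2 A B = Tp (Pt A B) := rfl

theorem tor (h : Z ≤ Z0 A B S c) (z : Z) : ∃ k : ℕ, 2 ^ k • z = 0 :=
  (h z.2).2.2.1.imp fun _ a => Subtype.ext (funext a)

section

variable (L : Lp S c P pl) (h : Z ≤ Z0 A B S c) (hV : V ⊆ S)
  (km : ∀ z ∈ Z, ∀ p ∈ S, p ∉ V → z ∈ Km A B (dec (P p)))
include L hV km

theorem zf_eq : Zf (PR V fun p => (pl p).compl₂ (inclusion (h.trans (Z0_le S c _)))) =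
    (Zs A B S c P).addSubgroupOf Z :=
  AddSubgroup.ext fun z => zf_iff.trans ⟨fun a => mem_Zs.2 ⟨h z.2, fun p m => if v : p ∈ V then
    (L.nn p m (inclusion (h.trans (Z0_le S c _)) z)).1 (a p v) else km z z.2 p m v⟩,
      fun a p v => (L.nn p (hV v) _).2 ((mem_Zs.1 a).2 p (hV v))⟩

theorem rr (x : Fx A B ⊤) (z : Z) : ∑ p ∈ V, (pl p).compl₂ (inclusion (h.trans (Z0_le S c _)))
    (inclusion (top_le _) x) z = 0 :=
  (Finset.sum_subset hV fun p m v => (L.nn p m _).2 (km z z.2 p m v) _).trans (L.rr x (inclusion h z))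

include h in
/-- **UP0** -/
theorem up_zero (ne : V.Nonempty) (lo : ∀ p ∈ V, Lo (Fx A B (dec (P p)))) :
    (Zs A B S c P).relIndex Z * Nat.card ↥(T2 A B ⊓ Fx A B ⊤) ∣
      ∏ p ∈ V, Nat.card ↥(T2 A B ⊓ Fx A B (dec (P p))) := by
  have k := pi0 (fun _ => top_le _) (tor h) (rr L h hV km) ne lo
  rwa [zf_eq L h hV km] at k

include h in
/-- **UP1** -/
theorem up_one {q : ℕ} (m : q ∈ V) (lo : ∀ p ∈ V.erase q, Lo (Fx A B (dec (P p))))
    {lg : Fx A B (dec (P q)) →+ K} {y0 : Fx A B (dec (P q))} (l : Lg lg y0) (x : Fx A B ⊤)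
    (n : lg (inclusion (top_le _) x) ≠ 0)
    (jx : (Fx A B ⊤).relIndex (Sat (Fx A B ⊤) ⊓ Fx A B (dec (P q))) ≠ 0) :
    (Zs A B S c P).relIndex Z ∣ (Fx A B ⊤).relIndex (Sat (Fx A B ⊤) ⊓ Fx A B (dec (P q))) *
      ∏ p ∈ V.erase q, Nat.card ↥(T2 A B ⊓ Fx A B (dec (P p))) := by
  have k := pi1 (fun _ => top_le _) (tor h) (rr L h hV km) m lo l x n jx
  rwa [zf_eq L h hV km] at k

end

/-- **COR** -/
theorem cor (hD : 4 * (A : ℚ) ^ 3 + 27 * (B : ℚ) ^ 2 ≠ 0)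
    (bad : ∀ l : ℕ, l.Prime → l ∉ S → ¬ (l : ℤ) ∣ 2 * (4 * A ^ 3 + 27 * B ^ 2))
    (b : Pq.Bs S (fun g => (mt hD g).map PadicInt.toZMod) c) (k : ℕ) :
    Finite (Tk (Z0 A B S c) k) ∧ 4 ^ k ≤ Nat.card (Tk (Z0 A B S c) k) := by
  have e : Tk (Z0 A B S c) k ≃ Pq.Zj (fun g => (ga g : Pt A B →+ Pt A B)) S c k :=
    ⟨fun x => ⟨x.1.1, x.1.2, congrArg Subtype.val x.2⟩, fun x => ⟨⟨x.1, x.2.1⟩, Subtype.ext x.2.2⟩,
      fun _ => rfl, fun _ => rfl⟩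
  have f := Pq.zj_fin (Pq.dm_ga hD) (Pq.ac_ga hD bad) b
  rw [Nat.card_congr e, e.finite_iff]
  refine ⟨f k, ?_⟩
  clear e
  induction k with
  | zero => exact have := f 0; Nat.card_pos
  | succ k i =>
    exact (pow_succ' 4 k).trans_le ((Nat.mul_le_mul_left 4 i).trans
      (Pq.low (Pq.dm_ga hD) (Pq.ac_ga hD bad) b k))

end Vale.Agent.P014T.Kx.Up
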